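import Vale.Agent.P281.H83.HKT.Defs
import Vale.Agent.P281.H191.HKT.Alt

/-!
# P281, project T-HKT (helper399): change of the basis of the 1-forms: algebra
-/

open Set Filter Metric MeasureTheory Vale.Agent.P272.K
open scoped Topology ContDiff ComplexConjugate ComplexOrder

set_option linter.unusedSectionVars false

noncomputable section

namespace Vale.Agent.P281.H399.HKT

open Vale.Agent.P281.H64.TK Vale.Agent.P281.H64.TK.TS
open Vale.Agent.P281.H83.HK Vale.Agent.P281.H83.HKT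
open Vale.Agent.P281.H191.HKT (W_subst)

variable {a d : ℕ}

/-- the 1-form of the row `j` -/
def lU (u : Matrix (Fin a) (Fin d) ℂ) (j : Fin a) : L1 d :=
  ∑ k, u j k • ((ContinuousLinearMap.proj (R := ℂ) k : Cm d →L[ℂ] ℂ).restrictScalars ℝ)

theorem lU_app (u : Matrix (Fin a) (Fin d) ℂ) (j : Fin a) (v : Cm d) :
    lU u j v = ∑ k, u j k * v k := by
  simp [lU, _root_.sum_apply]

/-- its conjugate -/
def lC (u : Matrix (Fin a) (Fin d) ℂ) (j : Fin a) : L1 d :=
  (Complex.conjCLE : ℂ →L[ℝ] ℂ).comp (lU u j)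

theorem lC_app (u : Matrix (Fin a) (Fin d) ℂ) (j : Fin a) (v : Cm d) :
    lC u j v = conj (lU u j v) := rfl

theorem lU_mul (g : Matrix (Fin a) (Fin a) ℂ) (u : Matrix (Fin a) (Fin d) ℂ) (j : Fin a) :
    lU (g * u) j = ∑ k, g j k • lU u k := by
  ext v
  rw [_root_.sum_apply, lU_app]
  have : ∀ k, (g j k • lU u k) v = g j k * ∑ l, u k l * v l := fun k => by
    rw [← lU_app]
    rfl
  simp only [this, Matrix.mul_apply, Finset.sum_mul, Finset.mul_sum]
  rw [Finset.sum_comm]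
  exact Finset.sum_congr rfl fun _ _ => Finset.sum_congr rfl fun _ _ => by ring

theorem lC_mul (g : Matrix (Fin a) (Fin a) ℂ) (u : Matrix (Fin a) (Fin d) ℂ) (j : Fin a) :
    lC (g * u) j = ∑ k, conj (g j k) • lC u k := by
  ext v
  rw [_root_.sum_apply, lC_app, lU_mul, _root_.sum_apply, map_sum]
  refine Finset.sum_congr rfl fun k _ => ?_
  show conj (g j k * lU u k v) = conj (g j k) * conj (lU u k v)
  rw [map_mul]

theorem thj_app (u : Matrix (Fin a) (Fin d) ℂ) (j : Fin a) (v w : Cm d) :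
    thj u j v w = Complex.I / 2 * (lU u j v * conj (lU u j w) - lU u j w * conj (lU u j v)) := by
  show Complex.I / 2 * ∑ k, ∑ l, (u j k * conj (u j l)) * (v k * conj (w l) - w k * conj (v l)) = _
  congr 1
  rw [lU_app, lU_app, map_sum, map_sum, Finset.sum_mul_sum, Finset.sum_mul_sum,
    ← Finset.sum_sub_distrib]
  refine Finset.sum_congr rfl fun k _ => ?_
  rw [← Finset.sum_sub_distrib]
  refine Finset.sum_congr rfl fun l _ => ?_
  rw [map_mul, map_mul]
  ring

/-- **a linear substitution** -/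
theorem W_thj (u : Matrix (Fin a) (Fin d) ℂ) (g : Matrix (Fin a) (Fin a) ℂ) (J : Finset (Fin d))
    (e : J ≃ Fin a) {x x' : Fin d → L2 d} (h0 : ∀ i ∉ J, x' i = x i)
    (h1 : ∀ j (hj : j ∈ J), x j = thj u (e ⟨j, hj⟩))
    (h2 : ∀ j (hj : j ∈ J), x' j = thj (g * u) (e ⟨j, hj⟩)) :
    W x' = ((‖g.det‖ ^ 2 : ℝ) : ℂ) * W x := by
  classical
  set M : Fin 2 → Matrix J J ℂ := fun ε =>
    if ε = 0 then g.submatrix e e else (g.map conj).submatrix e e with hM
  have hdet : (Matrix.blockDiagonal M).det = ((‖g.det‖ ^ 2 : ℝ) : ℂ) := by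
    rw [Matrix.det_blockDiagonal, Fin.prod_univ_two, hM]
    simp only [if_true, if_false, Matrix.det_submatrix_equiv_self, one_ne_zero]
    have h3 : (g.map conj).det = conj g.det := (RingHom.map_det (starRingEnd ℂ) g).symm
    rw [h3, Complex.mul_conj, Complex.normSq_eq_norm_sq]
  rw [← hdet]
  set l : Matrix (Fin a) (Fin d) ℂ → J × Fin 2 → L1 d := fun u p =>
    if p.2 = 0 then (Complex.I / 2) • lU u (e p.1) else lC u (e p.1) with hl
  have key : ∀ (u : Matrix (Fin a) (Fin d) ℂ) (j : Fin d) (hj : j ∈ J) (v w : Cm d),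
      thj u (e ⟨j, hj⟩) v w = l u (⟨j, hj⟩, 0) v * l u (⟨j, hj⟩, 1) w -
        l u (⟨j, hj⟩, 0) w * l u (⟨j, hj⟩, 1) v := by
    intro u j hj v w
    rw [thj_app, hl]
    simp only [if_true, one_ne_zero, if_false]
    show _ = (Complex.I / 2 * lU u (e ⟨j, hj⟩) v) * conj (lU u (e ⟨j, hj⟩) w) -
      (Complex.I / 2 * lU u (e ⟨j, hj⟩) w) * conj (lU u (e ⟨j, hj⟩) v)
    ring
  refine W_subst J x x' (l u) (l (g * u)) (Matrix.blockDiagonal M) (fun p => ?_) h0
    (fun j hj v w => by rw [h1 j hj]; exact key u j hj v w)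
    (fun j hj v w => by rw [h2 j hj]; exact key (g * u) j hj v w)
  obtain ⟨j, ε⟩ := p
  rw [Fintype.sum_prod_type, Finset.sum_comm, Finset.sum_eq_single ε]
  · have h4 : ∀ k : J, Matrix.blockDiagonal M (j, ε) (k, ε) = M ε j k := fun k =>
      Matrix.blockDiagonal_apply_eq M j k ε
    simp only [h4]
    fin_cases ε
    · simp only [hM, hl, Fin.zero_eta, if_true, Matrix.submatrix_apply]
      rw [lU_mul, Finset.smul_sum]
      rw [← Equiv.sum_comp e]
      refine Finset.sum_congr rfl fun k _ => ?_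
      rw [smul_smul, smul_smul, mul_comm]
    · simp only [hM, hl, Fin.mk_one, one_ne_zero, if_false, Matrix.submatrix_apply,
        Matrix.map_apply]
      rw [lC_mul, ← Equiv.sum_comp e]
  · intro δ _ hδ
    refine Finset.sum_eq_zero fun k _ => ?_
    rw [Matrix.blockDiagonal_apply_ne M j k (Ne.symm hδ)]
    ext v
    exact zero_mul _
  · intro h
    exact absurd (Finset.mem_univ _) h

/-- the places of `θ` in `lst` -/
def plE (h : a + 2 ≤ d) :
    (Finset.univ.filter fun i : Fin d => 2 ≤ i.val ∧ i.val - 2 < a : Finset (Fin d)) ≃ Fin a where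
  toFun i := ⟨i.1.val - 2, (Finset.mem_filter.1 i.2).2.2⟩
  invFun j := ⟨⟨j.val + 2, by omega⟩, Finset.mem_filter.2 ⟨Finset.mem_univ _, by simp⟩⟩
  left_inv i := by
    have := (Finset.mem_filter.1 i.2).2.1
    apply Subtype.ext
    apply Fin.ext
    show i.1.val - 2 + 2 = i.1.val
    omega
  right_inv j := by
    apply Fin.ext
    show j.val + 2 - 2 = j.val
    omega

/-- the places of `θ` in `thl` -/
def plT (h : a ≤ d) :
    (Finset.univ.filter fun i : Fin d => i.val < a : Finset (Fin d)) ≃ Fin a where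
  toFun i := ⟨i.1.val, (Finset.mem_filter.1 i.2).2⟩
  invFun j := ⟨⟨j.val, by omega⟩, Finset.mem_filter.2 ⟨Finset.mem_univ _, j.2⟩⟩
  left_inv i := rfl
  right_inv j := rfl

theorem W4_mul (h : a + 2 ≤ d) (g : Matrix (Fin a) (Fin a) ℂ) (u : Matrix (Fin a) (Fin d) ℂ)
    (x y c : L2 d) : W4 (g * u) x y c = ((‖g.det‖ ^ 2 : ℝ) : ℂ) * W4 u x y c := by
  refine W_thj u g _ (plE h) (fun i hi => ?_) (fun j hj => ?_) fun j hj => ?_
  · unfold lst
    by_cases h0 : i.val = 0
    · rw [if_pos h0, if_pos h0]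
    rw [if_neg h0, if_neg h0]
    by_cases h1 : i.val = 1
    · rw [if_pos h1, if_pos h1]
    rw [if_neg h1, if_neg h1]
    have h2 : ¬ i.val - 2 < a := fun h3 => hi (Finset.mem_filter.2 ⟨Finset.mem_univ _, by omega,
      h3⟩)
    rw [dif_neg h2, dif_neg h2]
  all_goals
    have h1 := (Finset.mem_filter.1 hj).2
    unfold lst
    rw [if_neg (by omega), if_neg (by omega), dif_pos h1.2]
    rfl

theorem thl_mul (h : a ≤ d) (g : Matrix (Fin a) (Fin a) ℂ) (u : Matrix (Fin a) (Fin d) ℂ)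
    (x : Fin d → L2 d) : W (thl (g * u) x) = ((‖g.det‖ ^ 2 : ℝ) : ℂ) * W (thl u x) := by
  refine W_thj u g _ (plT h) (fun i hi => ?_) (fun j hj => ?_) fun j hj => ?_
  · unfold thl
    have h2 : ¬ i.val < a := fun h3 => hi (Finset.mem_filter.2 ⟨Finset.mem_univ _, h3⟩)
    rw [dif_neg h2, dif_neg h2]
  all_goals
    have h1 := (Finset.mem_filter.1 hj).2
    unfold thl
    rw [dif_pos h1]
    rfl

end Vale.Agent.P281.H399.HKT
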