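import Vale.Agent.P281.H399.HK.Gen
import Vale.Agent.P281.H83.HKT.Defs

/-!
# P281, project T-HKT (helper399): closed 1-forms and `GenU` on two manifolds with the same complex
structure
-/

open Set Filter Metric Vale.Agent.P272.K
open scoped Topology ContDiff ComplexConjugate ComplexOrder

set_option linter.unusedSectionVars false

noncomputable section

namespace Vale.Agent.P281.H399.HKT

open Vale.Agent.P281.H64.TK Vale.Agent.P281.H64.TK.TS Vale.Agent.P281.H864.TS
open Vale.Agent.P281.H864.K (holCompat_symm holCompat_compat jac_comp jac_id jac_congr)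
open Vale.Agent.P281.H399.TS Vale.Agent.P281.H399.HK Vale.Agent.P281.H83.HK
open Vale.Agent.P281.H83.HKT

variable {a d : ℕ}

/-! ### Algebra -/

theorem dt_pull (u : Matrix (Fin a) (Fin d) ℂ) (s G : Matrix (Fin d) (Fin d) ℂ) :
    dt (u * G) (pm G s) = dt u s * G.det ^ 2 := by
  have h1 : Matrix.fromBlocks (pm G s) (u * G).transpose (-(u * G)) 0 =
      (Matrix.fromBlocks G 0 0 (1 : Matrix (Fin a) (Fin a) ℂ)).transpose *
        Matrix.fromBlocks s u.transpose (-u) 0 *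
          Matrix.fromBlocks G 0 0 (1 : Matrix (Fin a) (Fin a) ℂ) := by
    rw [Matrix.fromBlocks_transpose, Matrix.fromBlocks_multiply, Matrix.fromBlocks_multiply]
    simp [Matrix.transpose_mul, pm]
  rw [dt, h1, Matrix.det_mul, Matrix.det_mul, Matrix.det_transpose, Matrix.det_fromBlocks_zero₂₁,
    Matrix.det_one, mul_one, dt]
  ring

/-- change of the basis of the 1-forms -/
theorem dt_mul (g : Matrix (Fin a) (Fin a) ℂ) (u : Matrix (Fin a) (Fin d) ℂ)
    (s : Matrix (Fin d) (Fin d) ℂ) : dt (g * u) s = g.det ^ 2 * dt u s := by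
  have h1 : Matrix.fromBlocks s (g * u).transpose (-(g * u)) 0 =
      (Matrix.fromBlocks (1 : Matrix (Fin d) (Fin d) ℂ) 0 0 g) *
        Matrix.fromBlocks s u.transpose (-u) 0 *
          Matrix.fromBlocks (1 : Matrix (Fin d) (Fin d) ℂ) 0 0 g.transpose := by
    rw [Matrix.fromBlocks_multiply, Matrix.fromBlocks_multiply]
    simp [Matrix.transpose_mul]
  rw [dt, h1, Matrix.det_mul, Matrix.det_mul, Matrix.det_fromBlocks_zero₂₁,
    Matrix.det_fromBlocks_zero₂₁, Matrix.det_one, Matrix.det_transpose, dt]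
  ring

theorem uu_pull (m : Matrix (Fin a) (Fin a) ℂ) (u : Matrix (Fin a) (Fin d) ℂ)
    (G : Matrix (Fin d) (Fin d) ℂ) : pm G (uu m u) = uu m (u * G) := by
  simp only [pm, uu, Matrix.transpose_mul, Matrix.mul_assoc]

theorem uu_mul (m g : Matrix (Fin a) (Fin a) ℂ) (u : Matrix (Fin a) (Fin d) ℂ) :
    uu m (g * u) = uu (g.transpose * m * g) u := by
  simp only [uu, Matrix.transpose_mul, Matrix.mul_assoc]

theorem pm_add (J w w' : Matrix (Fin d) (Fin d) ℂ) : pm J (w + w') = pm J w + pm J w' := by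
  simp only [pm, Matrix.mul_add, Matrix.add_mul]

theorem dt_add_uu (u : Matrix (Fin a) (Fin d) ℂ) (s : Matrix (Fin d) (Fin d) ℂ)
    (m : Matrix (Fin a) (Fin a) ℂ) : dt u (s + uu m u) = dt u s := by
  have h1 : Matrix.fromBlocks (s + uu m u) u.transpose (-u) 0 =
      Matrix.fromBlocks (1 : Matrix (Fin d) (Fin d) ℂ) (-(u.transpose * m)) 0
        (1 : Matrix (Fin a) (Fin a) ℂ) * Matrix.fromBlocks s u.transpose (-u) 0 := by
    rw [Matrix.fromBlocks_multiply]
    simp [uu]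
  rw [dt, h1, Matrix.det_mul, Matrix.det_fromBlocks_zero₂₁, Matrix.det_one, Matrix.det_one,
    one_mul, one_mul, dt]

theorem dt_smul (ha : a < d) (c : ℂ) (u : Matrix (Fin a) (Fin d) ℂ)
    (s : Matrix (Fin d) (Fin d) ℂ) : dt u (c • s) = c ^ (d - a) * dt u s := by
  by_cases hc : c = 0
  · subst hc
    rw [zero_smul, zero_pow (by omega), zero_mul, dt, ← Matrix.exists_mulVec_eq_zero_iff]
    have h1 : LinearMap.ker (Matrix.mulVecLin u) ≠ ⊥ :=
      LinearMap.ker_ne_bot_of_finrank_lt (by simpa using ha)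
    obtain ⟨v, hv, hv0⟩ := Submodule.exists_mem_ne_zero_of_ne_bot h1
    refine ⟨Sum.elim v 0, fun h => hv0 ?_, ?_⟩
    · funext k
      exact congrFun h (Sum.inl k)
    · rw [Matrix.fromBlocks_mulVec]
      have h2 : u.mulVec v = 0 := hv
      have h3 : (Sum.elim v (0 : Fin a → ℂ)) ∘ Sum.inl = v := rfl
      have h4 : (Sum.elim v (0 : Fin a → ℂ)) ∘ Sum.inr = 0 := rfl
      rw [h3, h4, Matrix.neg_mulVec, h2]
      simp
  · have h1 : Matrix.fromBlocks (c • s) u.transpose (-u) 0 =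
        Matrix.fromBlocks (c • (1 : Matrix (Fin d) (Fin d) ℂ)) 0 0
          (1 : Matrix (Fin a) (Fin a) ℂ) * Matrix.fromBlocks s u.transpose (-u) 0 *
            Matrix.fromBlocks (1 : Matrix (Fin d) (Fin d) ℂ) 0 0
              (c⁻¹ • (1 : Matrix (Fin a) (Fin a) ℂ)) := by
      rw [Matrix.fromBlocks_multiply, Matrix.fromBlocks_multiply]
      simp [smul_smul, inv_mul_cancel₀ hc, mul_inv_cancel₀ hc]
    rw [dt, h1, Matrix.det_mul, Matrix.det_mul, Matrix.det_fromBlocks_zero₂₁,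
      Matrix.det_fromBlocks_zero₂₁, Matrix.det_smul, Matrix.det_smul, Matrix.det_one,
      Matrix.det_one, dt]
    simp only [Fintype.card_fin, mul_one, one_mul]
    have h2 : c ^ d = c ^ (d - a) * c ^ a := by rw [← pow_add]; congr 1; omega
    rw [h2, inv_pow]
    have h3 : c ^ a ≠ 0 := pow_ne_zero a hc
    field_simp

/-- derivative of the pull-back of a 1-form -/
theorem dd_um {θ : Cm d → Cm d} {z z' : Cm d} (h : AnalyticAt ℂ θ z) (hz : θ z = z')
    {u : Cm d → Matrix (Fin a) (Fin d) ℂ} (hu : ∀ j k, DifferentiableAt ℂ (fun v => u v j k) z')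
    (l : Fin d) (j : Fin a) (k : Fin d) :
    dd l (fun v => (u (θ v) * jac θ v) j k) z =
      ∑ x, ∑ m, dd m (fun v => u v j x) z' * (jac θ z m l * jac θ z x k) +
        ∑ x, u z' j x * dd l (fun v => jac θ v x k) z := by
  have hu' : ∀ x, DifferentiableAt ℂ (fun v => u (θ v) j x) z := fun x => by
    have h1 : DifferentiableAt ℂ (fun v => u v j x) (θ z) := by
      rw [hz]
      exact hu j x
    exact h1.comp z h.differentiableAt
  have h1 : ∀ x, HasFDerivAt (fun v => u (θ v) j x * jac θ v x k)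
      (u (θ z) j x • fderiv ℂ (fun v => jac θ v x k) z +
        jac θ z x k • fderiv ℂ (fun v => u (θ v) j x) z) z :=
    fun x => (hu' x).hasFDerivAt.mul (differentiableAt_jac h x k).hasFDerivAt
  have h2 := HasFDerivAt.fun_sum (u := Finset.univ) fun x _ => h1 x
  show fderiv ℂ (fun v => ∑ x, u (θ v) j x * jac θ v x k) z (Pi.single l 1) = _
  rw [h2.fderiv, _root_.sum_apply, ← Finset.sum_add_distrib]
  refine Finset.sum_congr rfl fun x _ => ?_
  have h3 := dd_comp h hz (hu j x) l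
  simp only [_root_.add_apply, _root_.smul_apply, smul_eq_mul]
  show u (θ z) j x * dd l (fun v => jac θ v x k) z +
    jac θ z x k * dd l (fun v => u (θ v) j x) z = _
  rw [h3, hz, Finset.mul_sum, add_comm]
  congr 1
  exact Finset.sum_congr rfl fun m _ => by ring

/-- **the pull-back of a closed 1-form is closed** -/
theorem dd_um_symm {θ : Cm d → Cm d} {z z' : Cm d} (h : AnalyticAt ℂ θ z) (hz : θ z = z')
    {u : Cm d → Matrix (Fin a) (Fin d) ℂ} (hu : ∀ j k, DifferentiableAt ℂ (fun v => u v j k) z')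
    (closed : ∀ j k l, dd k (fun z => u z j l) z' = dd l (fun z => u z j k) z')
    (j : Fin a) (k l : Fin d) :
    dd k (fun v => (u (θ v) * jac θ v) j l) z = dd l (fun v => (u (θ v) * jac θ v) j k) z := by
  rw [dd_um h hz hu, dd_um h hz hu]
  congr 1
  · rw [Finset.sum_comm]
    refine Finset.sum_congr rfl fun x _ => Finset.sum_congr rfl fun m _ => ?_
    rw [closed j x m]
    ring
  · exact Finset.sum_congr rfl fun x _ => by rw [dd_jac_symm h x l k]

/-! ### Transport -/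

section
variable {E Γ : Type} [TopologicalSpace E] [Group Γ] [MulAction Γ E] [Subsingleton Γ]
  {S S' S'' : Sheets d E Γ}
variable {i : Fin S.N} {j j' : Fin S'.N} {k : Fin S''.N} {z z' z'' : Cm d} {θ χ : Cm d → Cm d}

theorem ch1 {u : Fin S.N → Cm d → Matrix (Fin a) (Fin d) ℂ} (hu : Hol1 S u) {i j : Fin S.N}
    (hz : z ∈ ball (0 : Cm d) 3) (hz' : z' ∈ ball (0 : Cm d) 3) (h : HTr S S i j z z' θ) :
    u i z = u j z' * jac θ z := hu.change i j z hz z' hz' θ h.an h.eq h.ev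

open Classical in
/-- the forms `u` of `S'` on `S` -/
def pbU (S S' : Sheets d E Γ) (u : Fin S'.N → Cm d → Matrix (Fin a) (Fin d) ℂ) (i : Fin S.N)
    (z : Cm d) : Matrix (Fin a) (Fin d) ℂ :=
  if h : ∃ p, Hd S S' i z p then u h.choose.1 h.choose.2.1 * jac h.choose.2.2 z else 0

theorem pbU_eq {u : Fin S'.N → Cm d → Matrix (Fin a) (Fin d) ℂ} (hu : Hol1 S' u)
    (hz' : z' ∈ ball (0 : Cm d) 3) (h : HTr S S' i j z z' θ) :
    pbU S S' u i z = u j z' * jac θ z := by
  have hex : ∃ p, Hd S S' i z p := ⟨(j, z', θ), hz', h⟩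
  rw [pbU, dif_pos hex]
  obtain ⟨h1, h2⟩ := hex.choose_spec
  set q := hex.choose with hq
  obtain ⟨χ, hχ⟩ := exists_htr_self S' q.1 j h1 hz' (by rw [← h2.pt, h.pt])
  rw [ch1 hu h1 hz' hχ, Matrix.mul_assoc, ← jac_comp' h2 hχ, jac_congr ((h2.comp hχ).uniq h hz')]

theorem pbU_near {u : Fin S'.N → Cm d → Matrix (Fin a) (Fin d) ℂ} (hu : Hol1 S' u)
    (hz : z ∈ ball (0 : Cm d) 3) (hz' : z' ∈ ball (0 : Cm d) 3) (h : HTr S S' i j z z' θ) :
    pbU S S' u i =ᶠ[𝓝 z] fun v => u j (θ v) * jac θ v := by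
  filter_upwards [h.near hz hz'] with v hv
  exact pbU_eq hu hv.2.1 hv.2.2

theorem pbU_hol (hc : HolCompat S S') {u : Fin S'.N → Cm d → Matrix (Fin a) (Fin d) ℂ}
    (hu : Hol1 S' u) : Hol1 S (pbU S S' u) where
  hol i b c := by
    intro z hz
    obtain ⟨j, z', hz', θ, h⟩ := exists_htr' hc i hz
    have h1 : (fun v => pbU S S' u i v b c) =ᶠ[𝓝 z] fun v =>
        ∑ x, u j (θ v) b x * jac θ v x c := by
      filter_upwards [pbU_near hu hz hz' h] with v hv
      rw [hv, Matrix.mul_apply]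
    refine (DifferentiableAt.congr_of_eventuallyEq ?_ h1).differentiableWithinAt
    refine DifferentiableAt.fun_sum fun x _ => DifferentiableAt.fun_mul ?_
      (differentiableAt_jac h.an _ _)
    have h1 : DifferentiableAt ℂ (fun v => u j v b x) (θ z) := by
      rw [h.eq]
      exact (hu.hol j b x).differentiableAt (isOpen_ball.mem_nhds hz')
    exact h1.comp z h.an.differentiableAt
  closed i z hz b k l := by
    obtain ⟨j, z', hz', θ, h⟩ := exists_htr' hc i hz
    have h1 : ∀ k l, dd k (fun v => pbU S S' u i v b l) z =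
        dd k (fun v => (u j (θ v) * jac θ v) b l) z := by
      intro k l
      have : (fun v => pbU S S' u i v b l) =ᶠ[𝓝 z] fun v => (u j (θ v) * jac θ v) b l := by
        filter_upwards [pbU_near hu hz hz' h] with v hv
        rw [hv]
      show fderiv ℂ _ z _ = fderiv ℂ _ z _
      rw [this.fderiv_eq]
    rw [h1, h1]
    exact dd_um_symm h.an h.eq (fun a b => (hu.hol j a b).differentiableAt
      (isOpen_ball.mem_nhds hz')) (hu.closed j z' hz') b k l
  change i j z hz z' hz' θ h1 h2 h3 := by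
    have h : HTr S S i j z z' θ := ⟨h1, h2, h3⟩
    obtain ⟨k, z'', hz'', χ, hχ⟩ := exists_htr' hc j hz'
    have h4 : pbU S S' u i z = pbU S S' u j z' * jac θ z := by
      rw [pbU_eq hu hz'' (h.comp hχ), pbU_eq hu hz'' hχ, jac_comp' h hχ, Matrix.mul_assoc]
    exact h4

theorem pbU_pbU (hc : HolCompat S S') {u : Fin S.N → Cm d → Matrix (Fin a) (Fin d) ℂ}
    (hu : Hol1 S u) {i : Fin S.N} (hz : z ∈ ball (0 : Cm d) 3) :
    pbU S S' (pbU S' S u) i z = u i z := by
  obtain ⟨j, z', hz', θ, h⟩ := exists_htr' hc i hz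
  obtain ⟨χ, hχ⟩ := exists_htr (holCompat_symm hc) j i hz' hz h.pt.symm
  rw [pbU_eq (pbU_hol (holCompat_symm hc) hu) hz' h, pbU_eq hu hz hχ, Matrix.mul_assoc,
    ← jac_comp' h hχ, jac_congr ((h.comp hχ).uniq (htr_refl S i z) hz), jac_id, Matrix.mul_one]

/-- `GenU` depends only on the values in the ball -/
theorem GenU.congr {u u' : Fin S.N → Cm d → Matrix (Fin a) (Fin d) ℂ}
    {s : Fin S.N → Cm d → Matrix (Fin d) (Fin d) ℂ} (h : GenU S u s) (hu' : Hol1 S u')
    (e : ∀ i, ∀ z ∈ ball (0 : Cm d) 3, u' i z = u i z) : GenU S u' s where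
  one := hu'
  form := h.form
  ne := by
    obtain ⟨i, z, hz, hne⟩ := h.ne
    exact ⟨i, z, hz, by rw [e i z hz]; exact hne⟩
  span1 v hv := by
    obtain ⟨c, hc⟩ := h.span1 v hv
    exact ⟨c, fun i z hz => by rw [e i z hz, hc i z hz]⟩
  span2 s' hs' := by
    obtain ⟨c, m, hm, hc⟩ := h.span2 s' hs'
    exact ⟨c, m, hm, fun i z hz => by rw [e i z hz, hc i z hz]⟩

/-- **`GenU` depends only on the complex structure** -/
theorem genU_of (hc : HolCompat S S') {u : Fin S'.N → Cm d → Matrix (Fin a) (Fin d) ℂ}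
    {s : Fin S'.N → Cm d → Matrix (Fin d) (Fin d) ℂ}
    (h : GenU S' u s) : GenU S (pbU S S' u) (pbM S S' s) where
  one := pbU_hol hc h.one
  form := pbM_hol hc h.form
  ne := by
    obtain ⟨j, z', hz', hne⟩ := h.ne
    obtain ⟨i, z, hz, χ, hχ⟩ := exists_htr' (holCompat_symm hc) j hz'
    refine ⟨i, z, hz, fun h0 => hne ?_⟩
    rw [← pbM_pbM (holCompat_symm hc) h.form hz', pbM_eq (pbM_hol hc h.form) hz hχ,
      ← pbU_pbU (holCompat_symm hc) h.one hz', pbU_eq (pbU_hol hc h.one) hz hχ, dt_pull, h0,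
      zero_mul]
  span1 v hv := by
    obtain ⟨c, hc'⟩ := h.span1 (pbU S' S v) (pbU_hol (holCompat_symm hc) hv)
    refine ⟨c, fun i z hz => ?_⟩
    obtain ⟨j, z', hz', θ, hθ⟩ := exists_htr' hc i hz
    rw [← pbU_pbU hc hv hz, pbU_eq (pbU_hol (holCompat_symm hc) hv) hz' hθ,
      pbU_eq h.one hz' hθ, hc' j z' hz', Matrix.mul_assoc]
  span2 t ht := by
    obtain ⟨c, m, hm, hc'⟩ := h.span2 (pbM S' S t) (pbM_hol (holCompat_symm hc) ht)
    refine ⟨c, m, hm, fun i z hz => ?_⟩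
    obtain ⟨j, z', hz', θ, hθ⟩ := exists_htr' hc i hz
    rw [← pbM_pbM hc ht hz, pbM_eq (pbM_hol (holCompat_symm hc) ht) hz' hθ,
      pbM_eq h.form hz' hθ, pbU_eq h.one hz' hθ, hc' j z' hz', pm_add, pm_smul, uu_pull]

/-- **change of the basis** -/
theorem genU_mul {u : Fin S.N → Cm d → Matrix (Fin a) (Fin d) ℂ}
    {s : Fin S.N → Cm d → Matrix (Fin d) (Fin d) ℂ} (h : GenU S u s)
    {g : Matrix (Fin a) (Fin a) ℂ} (hg : IsUnit g.det)
    {u' : Fin S.N → Cm d → Matrix (Fin a) (Fin d) ℂ} (hu' : Hol1 S u')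
    (e : ∀ i, ∀ z ∈ ball (0 : Cm d) 3, u' i z = g * u i z) : GenU S u' s where
  one := hu'
  form := h.form
  ne := by
    obtain ⟨i, z, hz, hne⟩ := h.ne
    refine ⟨i, z, hz, ?_⟩
    rw [e i z hz, dt_mul]
    exact mul_ne_zero (pow_ne_zero 2 hg.ne_zero) hne
  span1 v hv := by
    obtain ⟨c, hc⟩ := h.span1 v hv
    refine ⟨c * g⁻¹, fun i z hz => ?_⟩
    rw [e i z hz, hc i z hz, Matrix.mul_assoc, ← Matrix.mul_assoc g⁻¹, Matrix.nonsing_inv_mul _ hg,
      Matrix.one_mul]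
  span2 s' hs' := by
    obtain ⟨c, m, hm, hc⟩ := h.span2 s' hs'
    refine ⟨c, (g⁻¹).transpose * m * g⁻¹, ?_, fun i z hz => ?_⟩
    · rw [Matrix.transpose_mul, Matrix.transpose_mul, Matrix.transpose_transpose, hm,
        Matrix.neg_mul, Matrix.mul_neg, Matrix.mul_assoc]
    · rw [e i z hz, uu_mul, hc i z hz]
      congr 2
      have h1 : g.transpose * ((g⁻¹).transpose * m * g⁻¹) * g =
          (g⁻¹ * g).transpose * m * (g⁻¹ * g) := by
        simp only [Matrix.transpose_mul, Matrix.mul_assoc]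
      rw [h1, Matrix.nonsing_inv_mul _ hg, Matrix.transpose_one, Matrix.one_mul, Matrix.mul_one]

/-- the change of `s` -/
theorem genU_s (ha : a < d) {u : Fin S.N → Cm d → Matrix (Fin a) (Fin d) ℂ}
    {s s' : Fin S.N → Cm d → Matrix (Fin d) (Fin d) ℂ} (h : GenU S u s) (h' : GenU S u s') :
    ∃ (c : ℂ) (m : Matrix (Fin a) (Fin a) ℂ), c ≠ 0 ∧ m.transpose = -m ∧
      ∀ i, ∀ z ∈ ball (0 : Cm d) 3, s' i z = c • s i z + uu m (u i z) := by
  obtain ⟨c, m, hm, hc⟩ := h.span2 s' h'.form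
  refine ⟨c, m, ?_, hm, hc⟩
  rintro rfl
  obtain ⟨i, z, hz, hne⟩ := h'.ne
  refine hne ?_
  rw [hc i z hz, dt_add_uu, dt_smul ha, zero_pow (by omega), zero_mul]

end

end Vale.Agent.P281.H399.HKT
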