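import Vale.Agent.P281.H399.HKT.Gen
import Vale.Agent.P281.H399.QT.Cmp
import Vale.Agent.P281.H399.HK.Glob2
import Vale.Agent.P281.H83.HKT.Spec

/-!
# P281, project T-HKT (helper399), GLOB, 1: one manifold, two manifolds
-/

open Set Filter Metric MeasureTheory Vale.Agent.P281 Vale.Agent.P281.H713 Vale.Agent.P272.K
open scoped Topology ContDiff Manifold ComplexConjugate ComplexOrder

set_option linter.unusedSectionVars false

noncomputable section

namespace Vale.Agent.P281.H399.HKT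

open Vale.Agent.P281.H64 (Mark)
open Vale.Agent.P281.H64.TK Vale.Agent.P281.H64.TK.TS Vale.Agent.P281.H864.TS
open Vale.Agent.P281.H603.TE (Cmp)
open Vale.Agent.P281.H864.K (holCompat_compat holCompat_refl)
open Vale.Agent.P281.H747.TS (l2_ext cl_congr cl_add cl_smul cl2_add cl2_smul cl2_congr)
open Vale.Agent.P281.H399.TS Vale.Agent.P281.H399.HK Vale.Agent.P281.H399.QT
open Vale.Agent.P281.H83.HK Vale.Agent.P281.H83.HKT

/-- the inputs -/
structure InsT : Prop where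
  fo : FormsStmt
  foT : FormsTStmt
  pos : PosTStmt
  per : PerTStmt
  bil : BilTStmt
  ratio : RatioTStmt
  pull : PullTStmt
  arith : ArithStmt
  gf : GenFamStmt
  holP : HolPTStmt
  bas : BasTStmt
  thc : ThConstStmt
  thm : ThCmpStmt
  mark : MarkStmt
  kc : KConst2Stmt

theorem bil_lin {n : ℕ} (B : Matrix (Fin n) (Fin n) ℝ) (c : ℂ) (x y z : Fin n → ℂ) :
    bil B (c • x + y) z = c * bil B x z + bil B y z := by
  unfold bil
  simp only [Finset.mul_sum, ← Finset.sum_add_distrib]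
  refine Finset.sum_congr rfl fun i _ => Finset.sum_congr rfl fun j _ => ?_
  simp only [Pi.add_apply, Pi.smul_apply, smul_eq_mul]
  ring

section one
variable {a d n : ℕ} {E Γ : Type} [TopologicalSpace E] [T2Space E] [Group Γ] [Subsingleton Γ]
  [MulAction Γ E] [ContinuousConstSMul Γ E] {S : Sheets d E Γ}
  {u : Fin S.N → Cm d → Matrix (Fin a) (Fin d) ℂ}
  {w : Fin S.N → Cm d → Matrix (Fin d) (Fin d) ℂ} {κ : ℝ} {B : Matrix (Fin n) (Fin n) ℝ}

theorem tf_add (m m' : Matrix (Fin d) (Fin d) ℂ) (u v : Cm d) :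
    tf (m + m') u v = tf m u v + tf m' u v := by
  rw [tf_dot, tf_dot, tf_dot, Matrix.add_mulVec, dotProduct_add]

theorem cls_lin (T : MarkT S u κ (kw w) B) {α β γ : Fin S.N → Cm d → L2 d} {c : ℂ}
    (hα : Cl2 S α) (hβ : Cl2 S β)
    (h : ∀ i, ∀ z ∈ ball (0 : Cm d) 3, γ i z = c • α i z + β i z) :
    T.cls γ = c • T.cls α + T.cls β := by
  have h1 : T.M.cl γ = c • T.M.cl α + T.M.cl β := by
    have h2 : Cl2 S (fun i z => c • α i z + β i z) := cl2_add (cl2_smul hα c) hβ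
    rw [← cl_smul T.M hα, ← cl_add T.M (cl2_smul hα c) hβ]
    exact (cl_congr T.M h2 fun i z hz => (h i z hz).symm).symm
  unfold MarkT.cls
  rw [h1, Matrix.mulVec_add, Matrix.mulVec_smul]

/-- two generators are not orthogonal -/
theorem nonorth (H : InsT) (ha : a + 2 ≤ d) (hκ : 0 < κ) (hw : Kah S w)
    (T : MarkT S u κ (kw w) B)
    {s s' : Fin S.N → Cm d → Matrix (Fin d) (Fin d) ℂ} (hs : GenU S u s) (hs' : GenU S u s') :
    bT S u (ts s') (cjs (ts s)) (kw w) ≠ 0 := by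
  have hd : 0 < d := by omega
  obtain ⟨c, m, hc, hm, h1⟩ := genU_s (by omega) hs hs'
  have fw := (H.fo d E Γ S hd).2.1 w hw
  have cs : Cl2 S (ts s) := (H.fo d E Γ S hd).1 s hs.form
  have cs' : Cl2 S (ts s') := (H.fo d E Γ S hd).1 s' hs'.form
  have cu : Cl2 S (ts fun i z => uu m (u i z)) :=
    (H.fo d E Γ S hd).1 _ ((H.foT a d E Γ S u hd hs.one).2 m hm)
  have cc : Cl2 S (cjs (ts s)) := (H.fo d E Γ S hd).2.2 _ cs
  obtain ⟨-, -, -, h2, h3⟩ := H.pos a d E Γ S w u s ha hw hs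
  have h4 : T.cls (ts s') = c • T.cls (ts s) + T.cls (ts fun i z => uu m (u i z)) := by
    refine cls_lin T cs cu fun i z hz => l2_ext fun x y => ?_
    show tf (s' i z) x y = c * tf (s i z) x y + tf (uu m (u i z)) x y
    rw [h1 i z hz, tf_add, tf_smul]
  have e1 := H.bil a d E Γ S u κ (kw w) n B T (ts s') (cjs (ts s)) ha hs.one fw.1 fw.2 cs' cc
  have e2 := H.bil a d E Γ S u κ (kw w) n B T (ts s) (cjs (ts s)) ha hs.one fw.1 fw.2 cs cc
  have e3 := H.bil a d E Γ S u κ (kw w) n B T (ts fun i z => uu m (u i z)) (cjs (ts s)) ha hs.one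
    fw.1 fw.2 cu cc
  rw [h3 m _ hm cc, zero_div] at e3
  rw [h4, bil_lin, e2, e3, add_zero] at e1
  intro h0
  rw [h0, zero_div] at e1
  rcases mul_eq_zero.1 e1 with h5 | h5
  · exact hc h5
  · rcases div_eq_zero_iff.1 h5 with h6 | h6
    · rw [h6] at h2
      simp at h2
    · exact hκ.ne' (by exact_mod_cast h6)

/-- the equation of the norm -/
def RT (S : Sheets d E Γ) (u : Fin S.N → Cm d → Matrix (Fin a) (Fin d) ℂ) (κ : ℝ)
    (w s : Fin S.N → Cm d → Matrix (Fin d) (Fin d) ℂ) (R : ℝ) : Prop :=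
  (volT S u s / κ) ^ 2 = R * ((bT S u (ts s) (cjs (ts s)) (kw w)).re / κ) ^ (d - a)

/-- rows -/
theorem hol1_row (h : Hol1 S u) (j : Fin a) : Hol1 S (fun i z => (u i z).submatrix
    (fun _ : Fin 1 => j) id) where
  hol i _ k := h.hol i j k
  closed i z hz _ k l := h.closed i z hz j k l
  change i i' z hz z' hz' θ h1 h2 h3 := by
    rw [h.change i i' z hz z' hz' θ h1 h2 h3]
    ext r k
    simp [Matrix.mul_apply]

/-- `GenU` for another basis of the 1-forms -/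
theorem genU_basis {u₁ : Fin S.N → Cm d → Matrix (Fin a) (Fin d) ℂ}
    {s : Fin S.N → Cm d → Matrix (Fin d) (Fin d) ℂ} (h : GenU S u₁ s) (hu : Hol1 S u)
    (hsp : ∀ v : Fin S.N → Cm d → Matrix (Fin 1) (Fin d) ℂ, Hol1 S v →
      ∃ c : Matrix (Fin 1) (Fin a) ℂ, ∀ i, ∀ z ∈ ball (0 : Cm d) 3, v i z = c * u i z) :
    GenU S u s := by
  choose c hc using fun j => hsp _ (hol1_row h.one j)
  set g : Matrix (Fin a) (Fin a) ℂ := Matrix.of fun j k => c j 0 k with hg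
  have h1 : ∀ i, ∀ z ∈ ball (0 : Cm d) 3, u₁ i z = g * u i z := by
    intro i z hz
    ext j k
    have h2 := congrFun (congrFun (hc j i z hz) 0) k
    rw [Matrix.mul_apply] at h2 ⊢
    exact h2
  have hdet : IsUnit g.det := by
    obtain ⟨i, z, hz, hne⟩ := h.ne
    rw [h1 i z hz, dt_mul] at hne
    exact isUnit_iff_ne_zero.2 fun h0 => hne (by rw [h0]; simp)
  refine genU_mul (g := g⁻¹) h (by
    rw [Matrix.det_nonsing_inv]
    exact hdet.ringInverse) hu fun i z hz => ?_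
  rw [h1 i z hz, ← Matrix.mul_assoc, Matrix.nonsing_inv_mul _ hdet, Matrix.one_mul]

end one

/-! ### Two manifolds -/

section two
variable {a d n : ℕ} {E Γ E' Γ' : Type} [TopologicalSpace E] [T2Space E] [Group Γ] [MulAction Γ E]
  [ContinuousConstSMul Γ E] [TopologicalSpace E'] [T2Space E'] [Group Γ'] [MulAction Γ' E']
  [ContinuousConstSMul Γ' E'] [Subsingleton Γ] [Subsingleton Γ']
  {S : Sheets d E Γ} {w : Fin S.N → Cm d → Matrix (Fin d) (Fin d) ℂ}
  {S' : Sheets d E' Γ'} {w' : Fin S'.N → Cm d → Matrix (Fin d) (Fin d) ℂ} {τ : E ≃ₜ E'}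
  {ρ : Γ ≃* Γ'} {u : Fin S.N → Cm d → Matrix (Fin a) (Fin d) ℂ}
  {u' : Fin S'.N → Cm d → Matrix (Fin a) (Fin d) ℂ} {κ κ' : ℝ}
  {s : Fin S.N → Cm d → Matrix (Fin d) (Fin d) ℂ}
  {s' : Fin S'.N → Cm d → Matrix (Fin d) (Fin d) ℂ}

theorem rt_two [PreconnectedSpace E] [PreconnectedSpace E'] (H : InsT) (ha : a + 2 ≤ d)
    (hD : Dif S S' τ) (hw : Kah S w) (hw' : Kah S' w') (gs : GenU S u s) (gs' : GenU S' u' s')
    (hκ : 0 < κ) (hκ' : 0 < κ') (hth : ThRel S u κ S' u' κ' τ) {α k : Fin S.N → Cm d → L2 d}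
    (hα : Cl2 S α) (hPα : Pull2 S S' τ α (ts s')) (hk : Cl2 S k) (hPk : Pull2 S S' τ k (kw w'))
    (hex : Exact S fun i z => k i z - kw w i z) (hne : bT S u α (cjs (ts s)) (kw w) ≠ 0) (R : ℝ) :
    RT S u κ w s R ↔ RT S' u' κ' w' s' R := by
  have h1 := H.ratio a d E Γ S E' Γ' S' τ w w' u u' κ κ' s s' α k ha hD hw hw' gs gs' hκ hκ' hth
    hα hPα hk hPk hex hne
  obtain ⟨-, -, -, p1, -⟩ := H.pos a d E Γ S w u s ha hw gs
  obtain ⟨-, -, -, p2, -⟩ := H.pos a d E' Γ' S' w' u' s' ha hw' gs'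
  have q1 := pow_pos (div_pos p1 hκ) (d - a)
  have q2 := pow_pos (div_pos p2 hκ') (d - a)
  unfold RT
  constructor
  · intro h
    rw [h] at h1
    have h4 : ((volT S' u' s' / κ') ^ 2 -
        R * ((bT S' u' (ts s') (cjs (ts s')) (kw w')).re / κ') ^ (d - a)) *
        ((bT S u (ts s) (cjs (ts s)) (kw w)).re / κ) ^ (d - a) = 0 := by linarith
    rcases mul_eq_zero.1 h4 with h5 | h5
    · linarith
    · exact absurd h5 q1.ne'
  · intro h
    rw [h] at h1
    have h4 : ((volT S u s / κ) ^ 2 -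
        R * ((bT S u (ts s) (cjs (ts s)) (kw w)).re / κ) ^ (d - a)) *
        ((bT S' u' (ts s') (cjs (ts s')) (kw w')).re / κ') ^ (d - a) = 0 := by linarith
    rcases mul_eq_zero.1 h4 with h5 | h5
    · linarith
    · exact absurd h5 q2.ne'

theorem hol1_pull_iff {b : ℕ} {hτ : ∀ γ e, τ (γ • e) = ρ γ • τ e}
    {v : Fin S'.N → Cm d → Matrix (Fin b) (Fin d) ℂ} :
    Hol1 S' v ↔ Hol1 (S'.pull τ ρ hτ) v := by
  refine ⟨fun H => ⟨H.hol, H.closed, fun i j z hz z' hz' θ a b c =>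
    H.change i j z hz z' hz' θ a b ?_⟩, fun H => ⟨H.hol, H.closed,
    fun i j z hz z' hz' θ a b c => H.change i j z hz z' hz' θ a b ?_⟩⟩
  · filter_upwards [c] with u hu
    exact τ.symm.injective hu
  · filter_upwards [c] with u hu
    exact congrArg τ.symm hu

/-- `GenU` on the isomorphic manifold -/
theorem genU_pull {hτ : ∀ γ e, τ (γ • e) = ρ γ • τ e} (h : GenU S' u' s') :
    GenU (S'.pull τ ρ hτ) u' s' :=
  ⟨hol1_pull_iff.1 h.one, hol2_pull_iff.1 h.form, h.ne, fun v hv => h.span1 v (hol1_pull_iff.2 hv),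
    fun v hv => h.span2 v (hol2_pull_iff.2 hv)⟩

/-- **comparison: the generator `s'` gives a generator** -/
theorem cmp_genU (h : Cmp S w S' w' τ ρ) (hs' : GenU S' u' s') (hu : Hol1 S u)
    (hsp : ∀ v : Fin S.N → Cm d → Matrix (Fin 1) (Fin d) ℂ, Hol1 S v →
      ∃ c : Matrix (Fin 1) (Fin a) ℂ, ∀ i, ∀ z ∈ ball (0 : Cm d) 3, v i z = c * u i z) :
    ∃ s, GenU S u s ∧ Pull2 S S' τ (ts s) (ts s') := by
  have hg : GenU (S'.pull τ ρ h.eqv) u' s' := genU_pull hs'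
  refine ⟨pbM S (S'.pull τ ρ h.eqv) s', genU_basis (genU_of h.hol hg) hu hsp, ?_⟩
  intro i j z hz z' hz' ψ hψ x y
  obtain ⟨θ, h5, -, h7⟩ := cmp_tr h hz hz' hψ
  show tf (pbM S (S'.pull τ ρ h.eqv) s' i z) x y = tf (s' j z') _ _
  rw [pbM_eq (S' := S'.pull τ ρ h.eqv) hg.form hz' h5, tf_pm, h7, h7]

end two

/-! ### Two quotients -/

section quot
variable {a d n : ℕ} {E K E' K' : Type} [TopologicalSpace E] [T2Space E] [SimplyConnectedSpace E]
  [Group K] [MulAction K E] [ContinuousConstSMul K E] [TopologicalSpace E'] [T2Space E']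
  [SimplyConnectedSpace E'] [Group K'] [MulAction K' E'] [ContinuousConstSMul K' E']
  {S : Sheets d E K} {w : Fin S.N → Cm d → Matrix (Fin d) (Fin d) ℂ}
  {S' : Sheets d E' K'} {w' : Fin S'.N → Cm d → Matrix (Fin d) (Fin d) ℂ} {τ : E ≃ₜ E'}
  {ρ : K ≃* K'} {F : E → Fin a → ℂ} {c : K → Fin a → ℂ} {F' : E' → Fin a → ℂ}
  {c' : K' → Fin a → ℂ} {M : Mark K (a + a)} {M' : Mark K' (a + a)}
  {B : Matrix (Fin n) (Fin n) ℝ}

/-- the marking on the isomorphic manifold -/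
theorem mk_cmp (H : InsT) (ha : a + 2 ≤ d) (hw : Kah S w) (hw' : Kah S' w')
    (h : Cmp S w S' w' τ ρ) (hF : IsBas S F c) (hF' : IsBas S' F' c')
    (T' : MarkT (quo S') (dF S' F') (cov M' c') (kw w') B) :
    ∃ T : MarkT (quo S) (dF S F) (cov M c) (kw w) B, T.clr (kw w) = T'.clr (kw w') := by
  have hd : 0 < d := by omega
  have := t2_quo S
  have := t2_quo S'
  have hq := cmp_quo h
  obtain ⟨b1, -, b3⟩ := H.bas d a E K S w M F c hd hw hF
  obtain ⟨b1', -, b3'⟩ := H.bas d a E' K' S' w' M' F' c' hd hw' hF'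
  have hth := H.thm d a E K S E' K' S' w w' τ ρ M M' F c F' c' (qmap τ ρ h.eqv) ha hw hw' h
    (fun e => qmap_pj e) hF hF'
  have kq := kah_quo hw
  have kq' := kah_quo hw'
  obtain ⟨T, hT, -⟩ := H.pull a d (Qs K E) One1 (quo S) (Qs K' E') One1 (quo S') (qmap τ ρ h.eqv) w
    w' (dF S F) (dF S' F') (cov M c) (cov M' c') n B T' (kw w) ha (cmp_difd hq) kq kq' b1 b1' b3
    b3' hth ((H.fo d _ _ (quo S) hd).2.1 w kq).1 (cmp_kw hq) (exact_self _)
  exact ⟨T, hT⟩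

/-- the equation of the norm on the isomorphic manifold -/
theorem rt_cmp (H : InsT) (ha : a + 2 ≤ d) (hw : Kah S w) (hw' : Kah S' w')
    (h : Cmp S w S' w' τ ρ) (hF : IsBas S F c) (hF' : IsBas S' F' c')
    {s : Fin (quo S).N → Cm d → Matrix (Fin d) (Fin d) ℂ}
    {s' : Fin (quo S').N → Cm d → Matrix (Fin d) (Fin d) ℂ} (gs : GenU (quo S) (dF S F) s)
    (gs' : GenU (quo S') (dF S' F') s') (T : MarkT (quo S) (dF S F) (cov M c) (kw w) B) (R : ℝ) :
    RT (quo S) (dF S F) (cov M c) w s R ↔ RT (quo S') (dF S' F') (cov M' c') w' s' R := by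
  have hd : 0 < d := by omega
  have := t2_quo S
  have := t2_quo S'
  have hq := cmp_quo h
  obtain ⟨b1, b2, b3⟩ := H.bas d a E K S w M F c hd hw hF
  obtain ⟨b1', b2', b3'⟩ := H.bas d a E' K' S' w' M' F' c' hd hw' hF'
  have hth := H.thm d a E K S E' K' S' w w' τ ρ M M' F c F' c' (qmap τ ρ h.eqv) ha hw hw' h
    (fun e => qmap_pj e) hF hF'
  have kq := kah_quo hw
  have kq' := kah_quo hw'
  obtain ⟨s₁, gs₁, hP⟩ := cmp_genU hq gs' b1 b2
  exact rt_two H ha (cmp_difd hq) kq kq' gs gs' b3 b3' hth ((H.fo d _ _ (quo S) hd).1 s₁ gs₁.form)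
    hP ((H.fo d _ _ (quo S) hd).2.1 w kq).1 (cmp_kw hq) (exact_self _)
    (nonorth H ha b3 kq T gs gs₁) R

theorem holCompat_self (S : Sheets d E K) : HolCompat S S := holCompat_refl S

end quot

end Vale.Agent.P281.H399.HKT
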