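import Vale.Agent.P281.H399.HKT.One

/-!
# P281, project T-HKT (helper399), GLOB, 2: families
-/

open Set Filter Metric MeasureTheory Vale.Agent.P281 Vale.Agent.P281.H713 Vale.Agent.P272.K
open scoped Topology ContDiff Manifold ComplexConjugate ComplexOrder

set_option linter.unusedSectionVars false

noncomputable section

namespace Vale.Agent.P281.H399.HKT

open Vale.Agent.P281.H64 (Mark)
open Vale.Agent.P281.H64.TK Vale.Agent.P281.H64.TK.TS Vale.Agent.P281.H864.TS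
open Vale.Agent.P281.H603.TE (Cmp)
open Vale.Agent.P281.H603.K (kah_fib)
open Vale.Agent.P281.H864.K (holCompat_compat holCompat_refl)
open Vale.Agent.P281.H747.TS (l2_ext cl_congr cl_add cl_smul cl2_add cl2_smul cl2_congr)
open Vale.Agent.P281.H399.TS Vale.Agent.P281.H399.HK Vale.Agent.P281.H399.QT
open Vale.Agent.P281.H83.HK Vale.Agent.P281.H83.HKT

section one
variable {d : ℕ} {E K : Type} [TopologicalSpace E] [Group K] [MulAction K E]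
  [ContinuousConstSMul K E] {S : Sheets d E K}
  {w : Fin S.N → Cm d → Matrix (Fin d) (Fin d) ℂ}

theorem cmp_refl (hw : Kah S w) : Cmp S w S w (Homeomorph.refl E) (MulEquiv.refl K) where
  eqv _ _ := rfl
  hol := holCompat_refl S
  met := hw.change

end one

section an
variable {p d : ℕ}

/-- the derivative in the direction of `z` -/
theorem an_dd {g : Cm p × Cm d → ℂ} {t : Cm p} {z : Cm d} (h : AnalyticAt ℂ g (t, z))
    (k : Fin d) : AnalyticAt ℂ (fun q : Cm p × Cm d => dd k (fun z => g (q.1, z)) q.2) (t, z) := by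
  have h1 : (fun q : Cm p × Cm d => dd k (fun z => g (q.1, z)) q.2) =ᶠ[𝓝 (t, z)]
      fun q => fderiv ℂ g q (0, Pi.single k 1) := by
    filter_upwards [h.eventually_analyticAt] with q hq
    have h2 : HasFDerivAt (fun z : Cm d => ((q.1, z) : Cm p × Cm d))
        (ContinuousLinearMap.inr ℂ (Cm p) (Cm d)) q.2 := hasFDerivAt_prodMk_right q.1 q.2
    have h3 : HasFDerivAt g (fderiv ℂ g q) ((fun z : Cm d => ((q.1, z) : Cm p × Cm d)) q.2) :=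
      hq.differentiableAt.hasFDerivAt
    have h4 := h3.comp q.2 h2
    show fderiv ℂ (fun z => g (q.1, z)) q.2 (Pi.single k 1) = _
    have h5 : fderiv ℂ (fun z => g (q.1, z)) q.2 =
        (fderiv ℂ g q).comp (ContinuousLinearMap.inr ℂ (Cm p) (Cm d)) := h4.fderiv
    rw [h5]
    rfl
  refine AnalyticAt.congr ?_ h1.symm
  exact AnalyticAt.fun_comp (g := fun L : (Cm p × Cm d) →L[ℂ] ℂ => L (0, Pi.single k 1))
    ((ContinuousLinearMap.apply ℂ ℂ ((0, Pi.single k 1) : Cm p × Cm d)).analyticAt _) h.fderiv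

end an

section fam
variable {p d a n : ℕ} {E K : Type} [TopologicalSpace E] [T2Space E] [SimplyConnectedSpace E]
  [Group K] [MulAction K E] [ContinuousConstSMul K E] {𝒢 : Fam p d E K}
  {W : Fin 𝒢.N → Cm p × Cm d → Matrix (Fin p ⊕ Fin d) (Fin p ⊕ Fin d) ℂ} {M : Mark K (a + a)}
  {t s r x y : Cm p} {ht : t ∈ 𝒢.T} {hs : s ∈ 𝒢.T} {hr : r ∈ 𝒢.T} {hx : x ∈ 𝒢.T}
  {hy : y ∈ 𝒢.T}

/-- the relation of the classes of `θ` -/
def ThR (𝒢 : Fam p d E K) (M : Mark K (a + a)) (t : Cm p) (ht : t ∈ 𝒢.T) (s : Cm p)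
    (hs : s ∈ 𝒢.T) : Prop :=
  ∀ (F : E → Fin a → ℂ) (c : K → Fin a → ℂ) (F' : E → Fin a → ℂ) (c' : K → Fin a → ℂ),
    IsBas (𝒢.at t ht) F c → IsBas (𝒢.at s hs) F' c' →
    ThRel (quo (𝒢.at t ht)) (dF (𝒢.at t ht) F) (cov M c) (quo (𝒢.at s hs))
      (dF (𝒢.at s hs) F') (cov M c') id

/-- the same family, near `x` -/
theorem local_bas (I : Inputs) (hd : 0 < d) (hW : KFam 𝒢 W) (M : Mark K (a + a)) {x : Cm p}
    (hx : x ∈ 𝒢.T) : ∃ (T' : Set (Cm p)) (hT' : T' ⊆ 𝒢.T) (F : Cm p → E → Fin a → ℂ)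
      (c : Cm p → K → Fin a → ℂ), IsOpen T' ∧ x ∈ T' ∧
      (∀ (t : Cm p) (ht : t ∈ T'), IsBas (𝒢.at t (hT' ht)) (F t) (c t)) ∧
      (∀ i, ∀ t ∈ T', ∀ z ∈ ball (0 : Cm d) 3, ∀ j,
        AnalyticAt ℂ (fun q : Cm p × Cm d => F q.1 (𝒢.σ i q.1 q.2) j) (t, z)) ∧
      ∀ γ j, ∀ t ∈ T', AnalyticAt ℂ (fun s => c s γ j) t := by
  obtain ⟨g, T', hT', F, c, hg, h1⟩ := I.d p d E K 𝒢 W hd hW (a + a) M x hx
  obtain rfl : a = g := by omega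
  exact ⟨T', hT', F, c, h1⟩

theorem exists_bas (I : Inputs) (hd : 0 < d) (hW : KFam 𝒢 W) (M : Mark K (a + a)) {x : Cm p}
    (hx : x ∈ 𝒢.T) : ∃ (F : E → Fin a → ℂ) (c : K → Fin a → ℂ), IsBas (𝒢.at x hx) F c := by
  obtain ⟨T', hT', F, c, -, h1, h2, -⟩ := local_bas I hd hW M hx
  exact ⟨F x, c x, h2 x h1⟩

theorem dif_q (ht : t ∈ 𝒢.T) (hs : s ∈ 𝒢.T) :
    Dif (quo (𝒢.at t ht)) (quo (𝒢.at s hs)) (Homeomorph.refl (Qs K E)) := by
  have := t2_quo (𝒢.at t ht)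
  exact dif_f (𝓕 := fquo 𝒢) ht hs

theorem htr_q (ht : t ∈ 𝒢.T) (hs : s ∈ 𝒢.T) :
    HasTr (quo (𝒢.at t ht)) (quo (𝒢.at s hs)) id := by
  have := t2_quo (𝒢.at t ht)
  exact htr_f (𝓕 := fquo 𝒢) ht hs

theorem thR_refl (H : InsT) (ha : a + 2 ≤ d) (hW : KFam 𝒢 W) (hx : x ∈ 𝒢.T) :
    ThR 𝒢 M x hx x hx := fun F c F' c' hF hF' =>
  H.thm d a E K (𝒢.at x hx) E K (𝒢.at x hx) (fibW W x) (fibW W x) (Homeomorph.refl E)
    (MulEquiv.refl K) M M F c F' c' (Homeomorph.refl (Qs K E)) ha (kah_fib hW hx) (kah_fib hW hx)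
    (cmp_refl (kah_fib hW hx)) (fun _ => rfl) hF hF'

theorem ThR.symm (h : ThR 𝒢 M t ht s hs) : ThR 𝒢 M s hs t ht := by
  intro F c F' c' hF hF' x x' h1 h2 h3
  refine (h F' c' F c hF' hF x' x h2 h1 fun l => ?_).symm
  exact pull_symm (τ := Homeomorph.refl (Qs K E)) (dif_q hs ht) (h3 l)

theorem ThR.trans (I : Inputs) (H : InsT) (ha : a + 2 ≤ d) (hW : KFam 𝒢 W)
    (h : ThR 𝒢 M t ht s hs) (h' : ThR 𝒢 M s hs r hr) : ThR 𝒢 M t ht r hr := by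
  have hd : 0 < d := by omega
  intro F c F' c' hF hF' x x' h1 h2 h3
  obtain ⟨F₁, c₁, hF₁⟩ := exists_bas I hd hW M hs
  have := t2_quo (𝒢.at s hs)
  have hκ : 0 < cov M c₁ := (H.bas d a E K (𝒢.at s hs) (fibW W s) M F₁ c₁ hd (kah_fib hW hs)
    hF₁).2.2
  have c1 : ∀ l, Cl2 (quo (𝒢.at s hs)) (pb2 (quo (𝒢.at s hs)) (quo (𝒢.at r hr)) id (x' l)) :=
    fun l => pb2_cl2 continuous_id (htr_q hs hr) (h2 l)
  have p1 : ∀ l, Pull2 (quo (𝒢.at s hs)) (quo (𝒢.at r hr)) id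
      (pb2 (quo (𝒢.at s hs)) (quo (𝒢.at r hr)) id (x' l)) (x' l) :=
    fun l => pb2_pull (h2 l).toF2On
  have p2 : ∀ l, Pull2 (quo (𝒢.at t ht)) (quo (𝒢.at s hs)) id (x l)
      (pb2 (quo (𝒢.at s hs)) (quo (𝒢.at r hr)) id (x' l)) := fun l =>
    pull2_trans (htr_q ht hr) (htr_q hr hs) (h3 l)
      (pull_symm (τ := Homeomorph.refl (Qs K E)) (dif_q hs hr) (p1 l))
  have e1 := h F c F₁ c₁ hF hF₁ x _ h1 c1 p2
  have e2 := h' F₁ c₁ F' c' hF₁ hF' _ x' c1 h2 p1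
  have hκ' : (cov M c₁ : ℂ) ≠ 0 := by exact_mod_cast hκ.ne'
  refine mul_left_cancel₀ hκ' ?_
  linear_combination (cov M c' : ℂ) * e1 + (cov M c : ℂ) * e2

theorem thR_near (I : Inputs) (H : InsT) (ha : a + 2 ≤ d) (hW : KFam 𝒢 W) (M : Mark K (a + a))
    (hx : x ∈ 𝒢.T) : ∀ᶠ y in 𝓝 x, ∀ hy : y ∈ 𝒢.T, ThR 𝒢 M x hx y hy := by
  have hd : 0 < d := by omega
  obtain ⟨T', hT', F, c, ho, hxT, hb, -, hc⟩ := local_bas I hd hW M hx
  have := t2_quo (𝒢.at x hx)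
  filter_upwards [H.thc p d a E K 𝒢 W M T' hT' F c x hxT ha hW ho hb hc, ho.mem_nhds hxT]
    with y h1 hyT hy F₁ c₁ F₂ c₂ hF₁ hF₂ x₁ x₂ g1 g2 g3
  have p1 : ∀ l, Pull2 (quo (𝒢.at x hx)) (quo (𝒢.at x hx)) id (x₁ l) (x₁ l) := fun l i j z hz z'
    hz' ψ hψ u v => (g1 l).change i j z hz z' hz' (mem_univ _) ψ hψ u v
  have p2 : ∀ l, Pull2 (quo (𝒢.at y hy)) (quo (𝒢.at y hy)) id (x₂ l) (x₂ l) := fun l i j z hz z'
    hz' ψ hψ u v => (g2 l).change i j z hz z' hz' (mem_univ _) ψ hψ u v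
  have e1 := thR_refl (M := M) H ha hW hx F₁ c₁ (F x) (c x) hF₁ (hb x hxT) x₁ x₁ g1 g1 p1
  have e2 := h1 hyT x₁ x₂ g1 g2 g3
  have e3 := thR_refl (M := M) H ha hW hy (F y) (c y) F₂ c₂ (hb y hyT) hF₂ x₂ x₂ g2 g2 p2
  have k1 : (cov M (c x) : ℂ) ≠ 0 := by
    exact_mod_cast (H.bas d a E K (𝒢.at x hx) (fibW W x) M (F x) (c x) hd (kah_fib hW hx)
      (hb x hxT)).2.2.ne'
  have k2 : (cov M (c y) : ℂ) ≠ 0 := by
    exact_mod_cast (H.bas d a E K (𝒢.at y hy) (fibW W y) M (F y) (c y) hd (kah_fib hW hy)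
      (hb y hyT)).2.2.ne'
  refine mul_left_cancel₀ (mul_ne_zero k1 k2) ?_
  linear_combination (cov M c₂ : ℂ) * (cov M (c y) : ℂ) * e1 +
    (cov M c₂ : ℂ) * (cov M c₁ : ℂ) * e2 + (cov M c₁ : ℂ) * (cov M (c x) : ℂ) * e3

/-- **everywhere** -/
theorem thR_all (I : Inputs) (H : InsT) (ha : a + 2 ≤ d) (hW : KFam 𝒢 W) (M : Mark K (a + a))
    (ht : t ∈ 𝒢.T) (hs : s ∈ 𝒢.T) : ThR 𝒢 M t ht s hs := by
  set G : Cm p → Prop := fun y => ∃ hy : y ∈ 𝒢.T, ThR 𝒢 M t ht y hy with hG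
  have key : ∀ x ∈ 𝒢.T, ∀ᶠ y in 𝓝 x, G y = G x := by
    intro x hx
    filter_upwards [thR_near I H ha hW M hx, 𝒢.isOpen.mem_nhds hx] with y h1 hy
    apply propext
    constructor
    · rintro ⟨_, h2⟩
      exact ⟨hx, h2.trans I H ha hW (h1 hy).symm⟩
    · rintro ⟨_, h2⟩
      exact ⟨hy, h2.trans I H ha hW (h1 hy)⟩
  have h1 : G s = G t := const_of 𝒢.conn 𝒢.isOpen key ht hs
  obtain ⟨_, h2⟩ : G s := by rw [h1]; exact ⟨ht, thR_refl H ha hW ht⟩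
  exact h2

end fam

end Vale.Agent.P281.H399.HKT
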