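import Vale.Agent.P281.H399.HKT.Fam

/-!
# P281, project T-HKT (helper399), GLOB, 3: families: markings, the constant of the norm
-/

open Set Filter Metric MeasureTheory Vale.Agent.P281 Vale.Agent.P281.H713 Vale.Agent.P272.K
open scoped Topology ContDiff Manifold ComplexConjugate ComplexOrder

set_option linter.unusedSectionVars false

noncomputable section

namespace Vale.Agent.P281.H399.HKT

open Vale.Agent.P281.H64 (Mark)
open Vale.Agent.P281.H64.TK Vale.Agent.P281.H64.TK.TS Vale.Agent.P281.H864.TS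
open Vale.Agent.P281.H603.TE (Cmp)
open Vale.Agent.P281.H603.K (kah_fib)
open Vale.Agent.P281.H864.K (holCompat_compat holCompat_refl)
open Vale.Agent.P281.H747.TS (l2_ext cl_congr cl_add cl_smul cl2_add cl2_smul cl2_congr)
open Vale.Agent.P281.H399.TS Vale.Agent.P281.H399.HK Vale.Agent.P281.H399.QT
open Vale.Agent.P281.H83.HK Vale.Agent.P281.H83.HKT

section fam
variable {p d a n : ℕ} {E K : Type} [TopologicalSpace E] [T2Space E] [SimplyConnectedSpace E]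
  [Group K] [MulAction K E] [ContinuousConstSMul K E] {𝒢 : Fam p d E K}
  {W : Fin 𝒢.N → Cm p × Cm d → Matrix (Fin p ⊕ Fin d) (Fin p ⊕ Fin d) ℂ} {M : Mark K (a + a)}
  {t s r x y : Cm p} {ht : t ∈ 𝒢.T} {hs : s ∈ 𝒢.T} {hr : r ∈ 𝒢.T} {hx : x ∈ 𝒢.T}
  {hy : y ∈ 𝒢.T} {B : Matrix (Fin n) (Fin n) ℝ} {F F' F'' : E → Fin a → ℂ}
  {c c' c'' : K → Fin a → ℂ}

/-- the classes of `T'` at `s` and `T` at `t` are the same -/
def ClR (T' : MarkT (quo (𝒢.at s hs)) (dF (𝒢.at s hs) F') (cov M c') (kw (fibW W s)) B)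
    (T : MarkT (quo (𝒢.at t ht)) (dF (𝒢.at t ht) F) (cov M c) (kw (fibW W t)) B) : Prop :=
  ∀ α α', Cl2 (quo (𝒢.at s hs)) α → Cl2 (quo (𝒢.at t ht)) α' →
    Pull2 (quo (𝒢.at s hs)) (quo (𝒢.at t ht)) id α α' → T'.cls α = T.cls α'

theorem mk_at (I : Inputs) (H : InsT) (ha : a + 2 ≤ d) (hW : KFam 𝒢 W)
    (hF : IsBas (𝒢.at t ht) F c)
    (T : MarkT (quo (𝒢.at t ht)) (dF (𝒢.at t ht) F) (cov M c) (kw (fibW W t)) B)
    (hF' : IsBas (𝒢.at s hs) F' c') :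
    ∃ T' : MarkT (quo (𝒢.at s hs)) (dF (𝒢.at s hs) F') (cov M c') (kw (fibW W s)) B,
      T'.clr (kw (fibW W s)) = T.clr (kw (fibW W t)) ∧ ClR T' T := by
  have hd : 0 < d := by omega
  have := t2_quo (𝒢.at t ht)
  have hWq : KFam (fquo 𝒢) W := kfam_quo hW
  have ks := kah_quo (kah_fib hW hs)
  have kt := kah_quo (kah_fib hW ht)
  obtain ⟨b1, -, b3⟩ := H.bas d a E K (𝒢.at t ht) (fibW W t) M F c hd (kah_fib hW ht) hF
  obtain ⟨b1', -, b3'⟩ := H.bas d a E K (𝒢.at s hs) (fibW W s) M F' c' hd (kah_fib hW hs) hF'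
  have ct : Cl2 (quo (𝒢.at t ht)) (kw (fibW W t)) := ((H.fo d _ _ _ hd).2.1 _ kt).1
  exact H.pull a d (Qs K E) One1 (quo (𝒢.at s hs)) (Qs K E) One1 (quo (𝒢.at t ht))
    (Homeomorph.refl _) (fibW W s) (fibW W t) (dF (𝒢.at s hs) F') (dF (𝒢.at t ht) F) (cov M c')
    (cov M c) n B T (pb2 (quo (𝒢.at s hs)) (quo (𝒢.at t ht)) id (kw (fibW W t))) ha (dif_q hs ht)
    ks kt b1' b1 b3' b3 (thR_all I H ha hW M hs ht F' c' F c hF' hF)
    (pb2_cl2 continuous_id (htr_q hs ht) ct) (pb2_pull ct.toF2On)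
    (kw_exact (𝓕 := fquo 𝒢) H.mark H.kc H.fo hd hWq hs ht)

/-- the classes are compatible -/
theorem cls_mvd {T : MarkT (quo (𝒢.at t ht)) (dF (𝒢.at t ht) F) (cov M c) (kw (fibW W t)) B}
    {T' : MarkT (quo (𝒢.at s hs)) (dF (𝒢.at s hs) F') (cov M c') (kw (fibW W s)) B}
    {T'' : MarkT (quo (𝒢.at r hr)) (dF (𝒢.at r hr) F'') (cov M c'') (kw (fibW W r)) B}
    (h' : ClR T' T) (h'' : ClR T'' T) {o : Fin (quo (𝒢.at r hr)).N → Cm d → L2 d}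
    (ho : Cl2 (quo (𝒢.at r hr)) o) :
    T'.cls (pb2 (quo (𝒢.at s hs)) (quo (𝒢.at r hr)) id o) = T''.cls o := by
  have := t2_quo (𝒢.at t ht)
  have c1 : Cl2 (quo (𝒢.at t ht)) (pb2 (quo (𝒢.at t ht)) (quo (𝒢.at r hr)) id o) :=
    pb2_cl2 continuous_id (htr_q ht hr) ho
  have c2 : Cl2 (quo (𝒢.at s hs)) (pb2 (quo (𝒢.at s hs)) (quo (𝒢.at r hr)) id o) :=
    pb2_cl2 continuous_id (htr_q hs hr) ho
  have p1 : Pull2 (quo (𝒢.at r hr)) (quo (𝒢.at t ht)) id o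
      (pb2 (quo (𝒢.at t ht)) (quo (𝒢.at r hr)) id o) :=
    pull_symm (τ := Homeomorph.refl (Qs K E)) (dif_q ht hr) (pb2_pull ho.toF2On)
  rw [h'' _ _ ho c1 p1, h' _ _ c2 c1 (pull_two (𝓕 := fquo 𝒢) hs ht hr ho.toF2On)]

/-- the coefficients of the differentials -/
def uF (𝒢 : Fam p d E K) (F : Cm p → E → Fin a → ℂ) :
    Fin 𝒢.N → Cm p × Cm d → Matrix (Fin a) (Fin d) ℂ :=
  fun i q => Matrix.of fun j k => dd k (fun z => F q.1 (𝒢.σ i q.1 z) j) q.2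

theorem uF_at (F : Cm p → E → Fin a → ℂ) (ht : t ∈ 𝒢.T) :
    (fun i z => uF 𝒢 F i (t, z)) = dF (𝒢.at t ht) (F t) := rfl

/-- holomorphic generators near `x` -/
theorem local_gen (I : Inputs) (H : InsT) (ha : a + 2 ≤ d) (hW : KFam 𝒢 W) (M : Mark K (a + a))
    (gen : ∀ t (ht : t ∈ 𝒢.T) (F : E → Fin a → ℂ) (c : K → Fin a → ℂ), IsBas (𝒢.at t ht) F c →
      ∃ s, GenU (quo (𝒢.at t ht)) (dF (𝒢.at t ht) F) s) (hx : x ∈ 𝒢.T) :
    ∃ (T' : Set (Cm p)) (hT' : T' ⊆ 𝒢.T) (F : Cm p → E → Fin a → ℂ)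
      (c : Cm p → K → Fin a → ℂ) (s : Fin 𝒢.N → Cm p × Cm d → Matrix (Fin d) (Fin d) ℂ),
      IsOpen T' ∧ x ∈ T' ∧
      (∀ (t : Cm p) (ht : t ∈ T'), IsBas (𝒢.at t (hT' ht)) (F t) (c t)) ∧
      (∀ i, ∀ t ∈ T', ∀ z ∈ ball (0 : Cm d) 3, ∀ j,
        AnalyticAt ℂ (fun q : Cm p × Cm d => F q.1 (𝒢.σ i q.1 q.2) j) (t, z)) ∧
      (∀ γ j, ∀ t ∈ T', AnalyticAt ℂ (fun s => c s γ j) t) ∧
      (∀ i, ∀ t ∈ T', ∀ z ∈ ball (0 : Cm d) 3, ∀ j k,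
        AnalyticAt ℂ (fun q => s i q j k) (t, z)) ∧
      ∀ t (ht : t ∈ T'), GenU (quo (𝒢.at t (hT' ht))) (dF (𝒢.at t (hT' ht)) (F t))
        (fun i z => s i (t, z)) := by
  have hd : 0 < d := by omega
  obtain ⟨T₁, hT₁, F, c, ho, hxT, hb, hF, hc⟩ := local_bas I hd hW M hx
  have := t2_quo (𝒢.at x hx)
  obtain ⟨T', s, hT', ho', hxT', hs⟩ := H.gf p d a (Qs K E) One1 (fquo 𝒢) W T₁ (uF 𝒢 F) x hx ha
    (kfam_quo hW) hT₁ ho hxT
    (fun i t ht z hz j k => an_dd (g := fun q => F q.1 (𝒢.σ i q.1 q.2) j) (hF i t ht z hz j) k)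
    (fun t ht ht' => by
      obtain ⟨b1, b2, -⟩ := H.bas d a E K (𝒢.at t ht) (fibW W t) M (F t) (c t) hd (kah_fib hW ht)
        (hb t ht')
      exact ⟨b1, b2⟩)
    (gen x hx (F x) (c x) (hb x hxT))
  exact ⟨T', hT'.trans hT₁, F, c, s, ho', hxT', fun t ht => hb t (hT' ht),
    fun i t ht => hF i t (hT' ht), fun γ j t ht => hc γ j t (hT' ht), hs.hol2,
    fun t ht => hs.gen t (hT₁ (hT' ht)) ht⟩

/-- the periods are holomorphic -/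
theorem holP_of3 (H : InsT) (ha : a + 2 ≤ d)
    {T' : Set (Cm p)} (hT' : T' ⊆ 𝒢.T) (ho : IsOpen T') {F : Cm p → E → Fin a → ℂ}
    {s : Fin 𝒢.N → Cm p × Cm d → Matrix (Fin d) (Fin d) ℂ}
    (hol : ∀ i, ∀ t ∈ T', ∀ z ∈ ball (0 : Cm d) 3, ∀ j k, AnalyticAt ℂ (fun q => s i q j k) (t, z))
    (gen : ∀ t (ht : t ∈ T'), GenU (quo (𝒢.at t (hT' ht))) (dF (𝒢.at t (hT' ht)) (F t))
        (fun i z => s i (t, z)))
    (hx : x ∈ T')
    (T : MarkT (quo (𝒢.at x (hT' hx))) (dF (𝒢.at x (hT' hx)) F') (cov M c') (kw (fibW W x)) B)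
    {P : Cm p → Fin n → ℂ}
    (hP : ∀ t (ht : t ∈ T'), P t = T.cls (pb2 (quo (𝒢.at x (hT' hx))) (quo (𝒢.at t (hT' ht))) id
      (ts fun i z => s i (t, z)))) (k : Fin n) :
    AnalyticAt ℂ (fun t => P t k) x := by
  classical
  have hd : 0 < d := by omega
  have := t2_quo (𝒢.at x (hT' hx))
  have c1 : ∀ t (ht : t ∈ T'), Cl2 (quo (𝒢.at t (hT' ht))) (ts fun i z => s i (t, z)) :=
    fun t ht => (H.fo _ _ _ _ hd).1 _ (gen t ht).form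
  obtain ⟨α, hα⟩ : ∃ α : Cm p → Fin (quo (𝒢.at x (hT' hx))).N → Cm d → L2 d,
      ∀ t (ht : t ∈ T'), α t = pb2 (quo (𝒢.at x (hT' hx))) (quo (𝒢.at t (hT' ht))) id
        (ts fun i z => s i (t, z)) :=
    ⟨fun t => if ht : t ∈ T' then pb2 (quo (𝒢.at x (hT' hx))) (quo (𝒢.at t (hT' ht))) id
      (ts fun i z => s i (t, z)) else fun _ _ => 0, fun t ht => dif_pos ht⟩
  have e1 : ∀ t (ht : t ∈ T'), Cl2 (quo (𝒢.at x (hT' hx))) (α t) := fun t ht => by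
    rw [hα t ht]
    exact pb2_cl2 continuous_id (htr_q _ _) (c1 t ht)
  have e2 : ∀ t (ht : t ∈ T'), Pull2 (quo (𝒢.at x (hT' hx))) (quo (𝒢.at t (hT' ht))) id (α t)
      (ts fun i z => s i (t, z)) := fun t ht => by
    rw [hα t ht]
    exact pb2_pull (c1 t ht).toF2On
  have h1 := H.holP p d (Qs K E) One1 (fquo 𝒢) T' hT' s x hx T.n T.M α hd ho hol
    (fun t ht => (gen t ht).form) (fun t ht => ⟨e1 t ht, e2 t ht⟩)
  have h2 : AnalyticAt ℂ (fun t => ∑ l, (T.J k l : ℂ) * T.M.cl (α t) l) x := by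
    refine Finset.analyticAt_fun_sum _ fun l _ => ?_
    exact analyticAt_const.mul (h1 l)
  refine h2.congr ?_
  filter_upwards [ho.mem_nhds hx] with t ht
  rw [hα t ht, hP t ht]
  rfl

/-- the norm has the constant `R` at `y` -/
def GR (W : Fin 𝒢.N → Cm p × Cm d → Matrix (Fin p ⊕ Fin d) (Fin p ⊕ Fin d) ℂ)
    (M : Mark K (a + a)) (R : ℝ) (y : Cm p) : Prop :=
  ∃ hy : y ∈ 𝒢.T, ∀ (F : E → Fin a → ℂ) (c : K → Fin a → ℂ)
    (s : Fin 𝒢.N → Cm d → Matrix (Fin d) (Fin d) ℂ), IsBas (𝒢.at y hy) F c →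
    GenU (quo (𝒢.at y hy)) (dF (𝒢.at y hy) F) s →
      RT (quo (𝒢.at y hy)) (dF (𝒢.at y hy) F) (cov M c) (fibW W y) s R

/-- one basis, one generator -/
theorem gr_of (I : Inputs) (H : InsT) (ha : a + 2 ≤ d) (hW : KFam 𝒢 W) {F₀ : E → Fin a → ℂ}
    {c₀ : K → Fin a → ℂ} (hF₀ : IsBas (𝒢.at t ht) F₀ c₀)
    (T : MarkT (quo (𝒢.at t ht)) (dF (𝒢.at t ht) F₀) (cov M c₀) (kw (fibW W t)) B)
    (hF : IsBas (𝒢.at y hy) F c) {s : Fin 𝒢.N → Cm d → Matrix (Fin d) (Fin d) ℂ}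
    (hs : GenU (quo (𝒢.at y hy)) (dF (𝒢.at y hy) F) s) {R : ℝ}
    (h : RT (quo (𝒢.at y hy)) (dF (𝒢.at y hy) F) (cov M c) (fibW W y) s R) : GR W M R y := by
  refine ⟨hy, fun F' c' s' hF' hs' => ?_⟩
  obtain ⟨T', -⟩ := mk_at (s := y) (hs := hy) I H ha hW hF₀ T hF'
  exact (rt_cmp (M := M) (M' := M) H ha (kah_fib hW hy) (kah_fib hW hy) (cmp_refl (kah_fib hW hy))
    hF' hF hs' hs T' R).2 h

/-- near `x` -/
theorem gr_near (I : Inputs) (H : InsT) (ha : a + 2 ≤ d) (hW : KFam 𝒢 W)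
    (gen : ∀ t (ht : t ∈ 𝒢.T) (F : E → Fin a → ℂ) (c : K → Fin a → ℂ), IsBas (𝒢.at t ht) F c →
      ∃ s, GenU (quo (𝒢.at t ht)) (dF (𝒢.at t ht) F) s)
    {F₀ : E → Fin a → ℂ} {c₀ : K → Fin a → ℂ} (hF₀ : IsBas (𝒢.at t ht) F₀ c₀)
    (T : MarkT (quo (𝒢.at t ht)) (dF (𝒢.at t ht) F₀) (cov M c₀) (kw (fibW W t)) B)
    (hx : x ∈ 𝒢.T) (R : ℝ) : ∀ᶠ y in 𝓝 x, (GR W M R y ↔ GR W M R x) := by
  have hd : 0 < d := by omega
  have := t2_quo (𝒢.at x hx)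
  obtain ⟨T', hT', F, c, s, ho, hxT, hb, -, -, hol, hg⟩ := local_gen I H ha hW M gen hx
  obtain ⟨Tx, -, hTx⟩ := mk_at (s := x) (hs := hx) I H ha hW hF₀ T (hb x hxT)
  have cg : ∀ y (hy : y ∈ T'), Cl2 (quo (𝒢.at y (hT' hy))) (ts fun i z => s i (y, z)) :=
    fun y hy => (H.fo _ _ _ _ hd).1 _ (hg y hy).form
  have kx := kah_quo (kah_fib hW hx)
  have fx := (H.fo d _ _ _ hd).2.1 _ kx
  have ccx : Cl2 (quo (𝒢.at x hx)) (cjs (ts fun i z => s i (x, z))) :=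
    (H.fo _ _ _ _ hd).2.2 _ (cg x hxT)
  obtain ⟨b1, -, b3⟩ := H.bas d a E K (𝒢.at x hx) (fibW W x) M (F x) (c x) hd (kah_fib hW hx)
    (hb x hxT)
  classical
  set P : Cm p → Fin n → ℂ := fun y => if hy : y ∈ T' then
    Tx.cls (pb2 (quo (𝒢.at x hx)) (quo (𝒢.at y (hT' hy))) id (ts fun i z => s i (y, z)))
      else 0 with hP
  have hPy : ∀ y (hy : y ∈ T'), P y =
      Tx.cls (pb2 (quo (𝒢.at x hx)) (quo (𝒢.at y (hT' hy))) id (ts fun i z => s i (y, z))) :=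
    fun y hy => dif_pos hy
  have hPa : ∀ k, AnalyticAt ℂ (fun y => P y k) x := fun k =>
    holP_of3 H ha hT' ho hol hg hxT Tx hPy k
  set Q : Fin n → ℂ := Tx.cls (cjs (ts fun i z => s i (x, z))) with hQ
  have h2 : ContinuousAt (fun y => bil B (P y) Q) x :=
    (continuous_bil B Q).continuousAt.comp (f := P)
      (continuousAt_pi.2 fun k => (hPa k).continuousAt)
  have hbil : ∀ y (hy : y ∈ T'), bil B (P y) Q = bT (quo (𝒢.at x hx)) (dF (𝒢.at x hx) (F x))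
      (pb2 (quo (𝒢.at x hx)) (quo (𝒢.at y (hT' hy))) id (ts fun i z => s i (y, z)))
      (cjs (ts fun i z => s i (x, z))) (kw (fibW W x)) / cov M (c x) := fun y hy => by
    rw [hPy y hy]
    exact H.bil a d _ _ (quo (𝒢.at x hx)) _ _ _ n B Tx _ _ ha b1 fx.1 fx.2
      (pb2_cl2 continuous_id (htr_q hx (hT' hy)) (cg y hy)) ccx
  have h4 : bil B (P x) Q ≠ 0 := by
    have e1 : P x = Tx.cls (ts fun i z => s i (x, z)) := by
      rw [hPy x hxT]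
      unfold MarkT.cls
      congr 1
      exact cl_congr _ (pb2_cl2 continuous_id (htr_q hx hx) (cg x hxT)) fun i z hz =>
        pull_id (pb2_pull (cg x hxT).toF2On) i hz
    rw [e1, hQ, H.bil a d _ _ (quo (𝒢.at x hx)) _ _ _ n B Tx _ _ ha b1 fx.1 fx.2
      (cg x hxT) ccx]
    have h5 := nonorth H ha b3 kx Tx (hg x hxT) (hg x hxT)
    exact div_ne_zero h5 (by exact_mod_cast b3.ne')
  filter_upwards [h2.eventually_ne h4, ho.mem_nhds hxT] with y h5 hy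
  have hyT := hT' hy
  rw [hbil y hy] at h5
  have h6 : bT (quo (𝒢.at x hx)) (dF (𝒢.at x hx) (F x))
      (pb2 (quo (𝒢.at x hx)) (quo (𝒢.at y (hT' hy))) id (ts fun i z => s i (y, z)))
      (cjs (ts fun i z => s i (x, z))) (kw (fibW W x)) ≠ 0 := fun h0 => h5 (by rw [h0, zero_div])
  have ky := kah_quo (kah_fib hW hyT)
  have cy : Cl2 (quo (𝒢.at y hyT)) (kw (fibW W y)) := ((H.fo d _ _ _ hd).2.1 _ ky).1
  have b3' := (H.bas d a E K (𝒢.at y hyT) (fibW W y) M (F y) (c y) hd (kah_fib hW hyT)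
    (hb y hy)).2.2
  have key := rt_two (τ := Homeomorph.refl (Qs K E)) H ha (dif_q hx hyT) kx ky (hg x hxT) (hg y hy)
    b3 b3' (thR_all I H ha hW M hx hyT _ _ _ _ (hb x hxT) (hb y hy))
    (pb2_cl2 continuous_id (htr_q hx hyT) (cg y hy)) (pb2_pull (cg y hy).toF2On)
    (pb2_cl2 continuous_id (htr_q hx hyT) cy) (pb2_pull cy.toF2On)
    (kw_exact (𝓕 := fquo 𝒢) H.mark H.kc H.fo hd (kfam_quo hW) hx hyT) h6 R
  constructor
  · rintro ⟨_, h7⟩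
    exact gr_of I H ha hW hF₀ T (hb x hxT) (hg x hxT) (key.2 (h7 _ _ _ (hb y hy) (hg y hy)))
  · rintro ⟨_, h7⟩
    exact gr_of I H ha hW hF₀ T (hb y hy) (hg y hy) (key.1 (h7 _ _ _ (hb x hxT) (hg x hxT)))

/-- everywhere -/
theorem gr_all (I : Inputs) (H : InsT) (ha : a + 2 ≤ d) (hW : KFam 𝒢 W)
    (gen : ∀ t (ht : t ∈ 𝒢.T) (F : E → Fin a → ℂ) (c : K → Fin a → ℂ), IsBas (𝒢.at t ht) F c →
      ∃ s, GenU (quo (𝒢.at t ht)) (dF (𝒢.at t ht) F) s)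
    {F₀ : E → Fin a → ℂ} {c₀ : K → Fin a → ℂ} (hF₀ : IsBas (𝒢.at t ht) F₀ c₀)
    (T : MarkT (quo (𝒢.at t ht)) (dF (𝒢.at t ht) F₀) (cov M c₀) (kw (fibW W t)) B) {R : ℝ}
    (h : GR W M R t) (hs : s ∈ 𝒢.T) : GR W M R s := by
  have key : ∀ x ∈ 𝒢.T, ∀ᶠ y in 𝓝 x, GR W M R y = GR W M R x := by
    intro x hx
    filter_upwards [gr_near I H ha hW gen hF₀ T hx R] with y h1
    exact propext h1
  have h1 : GR W M R s = GR W M R t := const_of 𝒢.conn 𝒢.isOpen key ht hs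
  rw [h1]
  exact h

end fam

end Vale.Agent.P281.H399.HKT
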