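import Vale.Agent.P281.H399.HKT.Fam2

/-!
# P281, project T-HKT (helper399), GLOB, 4: `GlobTStmt`
-/

open Set Filter Metric MeasureTheory Vale.Agent.P281 Vale.Agent.P281.H713 Vale.Agent.P272.K
open scoped Topology ContDiff Manifold ComplexConjugate ComplexOrder

set_option linter.unusedSectionVars false

noncomputable section

namespace Vale.Agent.P281.H399.HKT

open Vale.Agent.P281.H64 (Mark IsProperFibration)
open Vale.Agent.P281.H64.TK Vale.Agent.P281.H64.TK.TS Vale.Agent.P281.H864.TS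
open Vale.Agent.P281.H603.TE (Cmp sub fsub fW core idx compareE map_core kah_fW kfam_sub
  form_move res ccs)
open Vale.Agent.P281.H603.K (kah_fib)
open Vale.Agent.P281.H399.TS Vale.Agent.P281.H399.HK Vale.Agent.P281.H399.QT
open Vale.Agent.P281.H83.HK Vale.Agent.P281.H83.HKT

attribute [local instance] ccs

section one
variable {a d n : ℕ} {E Γ : Type} [TopologicalSpace E] [T2Space E] [Group Γ] [Subsingleton Γ]
  [MulAction Γ E] [ContinuousConstSMul Γ E] {S : Sheets d E Γ}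
  {u : Fin S.N → Cm d → Matrix (Fin a) (Fin d) ℂ}

theorem volT_pos {s : Fin S.N → Cm d → Matrix (Fin d) (Fin d) ℂ} (h : GenU S u s) :
    0 < volT S u s := by
  refine H747.TS.int_pos S (fun i z => ‖dt (u i z) (s i z)‖) (fun i => ?_)
    (fun i z _ => norm_nonneg _) (fun i j z hz z' hz' e h0 => ?_) ?_
  · have h1 : ContinuousOn (fun z => s i z) (ball (0 : Cm d) 3) :=
      continuousOn_pi.2 fun a => continuousOn_pi.2 fun b => (h.form.hol i a b).continuousOn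
    have h2 : ContinuousOn (fun z => u i z) (ball (0 : Cm d) 3) :=
      continuousOn_pi.2 fun a => continuousOn_pi.2 fun b => (h.one.hol i a b).continuousOn
    have h3 : Continuous fun m : Matrix (Fin a) (Fin d) ℂ × Matrix (Fin d) (Fin d) ℂ =>
        dt m.1 m.2 := by
      unfold dt
      exact (Continuous.matrix_fromBlocks continuous_snd continuous_fst.matrix_transpose
        continuous_fst.neg continuous_const).matrix_det
    exact (h3.comp_continuousOn (h2.prodMk h1)).norm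
  · obtain ⟨θ, hθ⟩ := H399.TS.exists_htr_self S i j hz hz' e
    rw [ch2 h.form hz hz' hθ, ch1 h.one hz hz' hθ, dt_pull] at h0
    intro h1
    rw [norm_eq_zero] at h1
    exact h0 (by rw [h1, zero_mul, norm_zero])
  · obtain ⟨i, z, hz, hne⟩ := h.ne
    exact ⟨i, z, hz, norm_ne_zero_iff.2 hne⟩

end one

section idx
variable {G G' : Type} [Group G] [Group G']

theorem index_core (ρ : G ≃* G') (m : ℕ) : (core G m).index = (core G' m).index := by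
  have h1 : core G m = (core G' m).comap ρ.toMonoidHom := by
    ext γ
    exact (map_core ρ m).symm
  rw [h1]
  exact Subgroup.index_comap_of_surjective _ ρ.surjective

end idx

section
variable {p d : ℕ} {Z Y : Type} [TopologicalSpace Z] [T2Space Z] [ChartedSpace (Cm (p + d)) Z]
  [IsManifold 𝓘(ℂ, Cm (p + d)) ω Z] [TopologicalSpace Y] [T2Space Y] [ChartedSpace (Cm p) Y]
  [IsManifold 𝓘(ℂ, Cm p) ω Y]

/-- the data at one point of a model -/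
def HasX {E Γ : Type} [TopologicalSpace E] [Group Γ] [MulAction Γ E] [ContinuousConstSMul Γ E]
    (𝓕 : Fam p d E Γ) (W : Fin 𝓕.N → Cm p × Cm d → Matrix (Fin p ⊕ Fin d) (Fin p ⊕ Fin d) ℂ)
    (a m N : ℕ) (B₁ : Matrix (Fin (a + a)) (Fin (a + a)) ℝ) {n : ℕ}
    (B : Matrix (Fin n) (Fin n) ℝ) (v : Fin n → ℝ) (R : ℝ) (t : Cm p)
    (ht : t ∈ 𝓕.T) : Prop :=
  ∃ (_ : (core Γ m).FiniteIndex), (core Γ m).index = N ∧ ∃ M : Mark (core Γ m) (a + a),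
    HasForm (sub (𝓕.at t ht) (core Γ m)) (fW (core Γ m) W t) M B₁ ∧
    ∃ (F : E → Fin a → ℂ) (c : core Γ m → Fin a → ℂ),
      IsBas (sub (𝓕.at t ht) (core Γ m)) F c ∧
      ∃ T : MarkT (quo (sub (𝓕.at t ht) (core Γ m))) (dF (sub (𝓕.at t ht) (core Γ m)) F)
        (cov M c) (kw (fW (core Γ m) W t)) B, T.clr (kw (fW (core Γ m) W t)) = v ∧
      GR (𝒢 := fsub 𝓕 (core Γ m)) (fun i => W (idx (core Γ m) 𝓕.N i).1) M R t

/-- some model at `y` has these data -/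
def PPX (f : Z → Y) (w : Chart (p + d) Z → Cm (p + d) → Matrix (Fin (p + d)) (Fin (p + d)) ℂ)
    (a m N : ℕ) (B₁ : Matrix (Fin (a + a)) (Fin (a + a)) ℝ) {n : ℕ}
    (B : Matrix (Fin n) (Fin n) ℝ) (v : Fin n → ℝ) (R : ℝ) (y : Y) : Prop :=
  ∃ (E Γ : Type) (_ : TopologicalSpace E) (_ : T2Space E) (_ : SimplyConnectedSpace E)
    (_ : Group Γ) (_ : MulAction Γ E) (_ : ContinuousConstSMul Γ E) (𝓕 : Fam p d E Γ)
    (q : Cm p → E → Z) (χ : OpenPartialHomeomorph Y (Cm p)) (t : Cm p) (ht : t ∈ 𝓕.T)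
    (W : Fin 𝓕.N → Cm p × Cm d → Matrix (Fin p ⊕ Fin d) (Fin p ⊕ Fin d) ℂ),
    Model (n := p + d) f 𝓕 χ q ∧ χ.symm t = y ∧ IsPull w 𝓕 q W ∧ KFam 𝓕 W ∧
      HasX 𝓕 W a m N B₁ B v R t ht

/-- `GenU` in all the models at `y` -/
theorem degU_all (I : Inputs) (H : InsT) {a m : ℕ} (ha : a + 2 ≤ d) {f : Z → Y}
    (hf : ContMDiff 𝓘(ℂ, Cm (p + d)) 𝓘(ℂ, Cm p) ω f)
    {w : Chart (p + d) Z → Cm (p + d) → Matrix (Fin (p + d)) (Fin (p + d)) ℂ} (hw : IsKahler w)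
    {y : Y} (h : NDegU p d a m f y)
    {E' Γ' : Type} [TopologicalSpace E'] [T2Space E'] [SimplyConnectedSpace E']
    [Group Γ'] [MulAction Γ' E'] [ContinuousConstSMul Γ' E'] [(core Γ' m).FiniteIndex]
    {𝓕' : Fam p d E' Γ'} {q' : Cm p → E' → Z} {χ' : OpenPartialHomeomorph Y (Cm p)}
    (M' : Model (n := p + d) f 𝓕' χ' q')
    {W' : Fin 𝓕'.N → Cm p × Cm d → Matrix (Fin p ⊕ Fin d) (Fin p ⊕ Fin d) ℂ}
    (hW' : IsPull w 𝓕' q' W') (hK' : KFam 𝓕' W') (Mk : Mark (core Γ' m) (a + a))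
    {t' : Cm p} (ht' : t' ∈ 𝓕'.T) (hy : χ'.symm t' = y)
    (F' : E' → Fin a → ℂ) (c' : core Γ' m → Fin a → ℂ)
    (hF' : IsBas (sub (𝓕'.at t' ht') (core Γ' m)) F' c') :
    ∃ s, GenU (quo (sub (𝓕'.at t' ht') (core Γ' m))) (dF (sub (𝓕'.at t' ht') (core Γ' m)) F') s := by
  have hd : 0 < d := by omega
  obtain ⟨E, Γ, _, _, _, _, _, _, _, 𝓕, q, χ, t, ht, hM, hy', F, c, hF, s, hs⟩ := h
  obtain ⟨W, hW, hK⟩ := I.w p d Z Y f w E Γ 𝓕 q _ hf hM hw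
  obtain ⟨τ, ρ, -, -, hcs⟩ := compareE I hd hf hw M' hM hW' hW ht' ht (by rw [hy, hy']) m
  obtain ⟨b1, b2, -⟩ := H.bas d a E' (core Γ' m) (sub (𝓕'.at t' ht') (core Γ' m))
    (fW (core Γ' m) W' t') Mk F' c' hd (kah_fW _ hK' ht') hF'
  have := t2_quo (sub (𝓕'.at t' ht') (core Γ' m))
  have := t2_quo (sub (𝓕.at t ht) (core Γ m))
  obtain ⟨s', hs', -⟩ := cmp_genU (cmp_quo hcs) hs b1 b2
  exact ⟨s', hs'⟩

/-- all the models at `y` have these data -/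
theorem PPX.all (I : Inputs) (H : InsT) {a m N : ℕ} (ha : a + 2 ≤ d) {f : Z → Y}
    (hf : ContMDiff 𝓘(ℂ, Cm (p + d)) 𝓘(ℂ, Cm p) ω f)
    {w : Chart (p + d) Z → Cm (p + d) → Matrix (Fin (p + d)) (Fin (p + d)) ℂ} (hw : IsKahler w)
    {B₁ : Matrix (Fin (a + a)) (Fin (a + a)) ℝ} {n : ℕ}
    {B : Matrix (Fin n) (Fin n) ℝ} {v : Fin n → ℝ} {R : ℝ} {y : Y}
    (h : PPX f w a m N B₁ B v R y) (hdeg : NDegU p d a m f y)
    {E' Γ' : Type} [TopologicalSpace E'] [T2Space E'] [SimplyConnectedSpace E']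
    [Group Γ'] [MulAction Γ' E'] [ContinuousConstSMul Γ' E'] {𝓕' : Fam p d E' Γ'}
    {q' : Cm p → E' → Z} {χ' : OpenPartialHomeomorph Y (Cm p)}
    (M' : Model (n := p + d) f 𝓕' χ' q')
    {W' : Fin 𝓕'.N → Cm p × Cm d → Matrix (Fin p ⊕ Fin d) (Fin p ⊕ Fin d) ℂ}
    (hW' : IsPull w 𝓕' q' W') (hK' : KFam 𝓕' W')
    {t' : Cm p} (ht' : t' ∈ 𝓕'.T) (hy : χ'.symm t' = y) : HasX 𝓕' W' a m N B₁ B v R t' ht' := by
  have hd : 0 < d := by omega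
  obtain ⟨E, Γ, _, _, _, _, _, _, 𝓕, q, χ, t, ht, W, hM, hy', hW, hK, hfin, hind, M, hform, F, c,
    hF, T, hT, hR⟩ := h
  have hfin' : (core Γ' m).FiniteIndex := H603.TE.coreS d m E' Γ' (𝓕'.at _ ht') hd
  obtain ⟨τ, ρ, -, -, hcs⟩ := compareE I hd hf hw M' hM hW' hW ht' ht (by rw [hy, hy']) m
  obtain ⟨τ₂, ρ₂, -, -, hcs₂⟩ := compareE I hd hf hw hM M' hW hW' ht ht' (by rw [hy, hy']) m
  have hform' := hcs₂.form I hd (kah_fW _ hK ht) (kah_fW _ hK' ht') hform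
  set M₁ := M.map (res ρ₂ fun _ => map_core ρ₂ m) with hM₁
  obtain ⟨F', c', hF'⟩ := exists_bas (𝒢 := fsub 𝓕' (core Γ' m)) I hd
    (kfam_sub 𝓕' (core Γ' m) hK') M₁ ht'
  obtain ⟨s', hs'⟩ := degU_all I H ha hf hw hdeg M' hW' hK' M₁ ht' hy F' c' hF'
  obtain ⟨s, hs⟩ := degU_all I H ha hf hw hdeg hM hW hK M ht hy' F c hF
  obtain ⟨T', hT'⟩ := mk_cmp (M := M₁) (M' := M) H ha (kah_fW _ hK' ht') (kah_fW _ hK ht) hcs hF'
    hF T
  obtain ⟨_, hR'⟩ := hR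
  have hrt := (rt_cmp (M := M₁) (M' := M) H ha (kah_fW _ hK' ht') (kah_fW _ hK ht) hcs hF' hF hs'
    hs T' R).2 (hR' F c s hF hs)
  exact ⟨hfin', (index_core ρ m).trans hind, M₁, hform', F', c', hF', T', hT'.trans hT,
    gr_of (𝒢 := fsub 𝓕' (core Γ' m)) (t := t') (ht := ht') I H ha (kfam_sub 𝓕' (core Γ' m) hK')
      hF' T' hF' hs' hrt⟩

/-- moving in a family -/
theorem HasX.move (I : Inputs) (H : InsT) {a m N : ℕ} (ha : a + 2 ≤ d)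
    {E Γ : Type} [TopologicalSpace E] [T2Space E] [SimplyConnectedSpace E]
    [Group Γ] [MulAction Γ E] [ContinuousConstSMul Γ E] {𝓕 : Fam p d E Γ}
    {W : Fin 𝓕.N → Cm p × Cm d → Matrix (Fin p ⊕ Fin d) (Fin p ⊕ Fin d) ℂ} (hK : KFam 𝓕 W)
    (gen : ∀ (_ : (core Γ m).FiniteIndex) (_ : Mark (core Γ m) (a + a)) t (ht : t ∈ 𝓕.T)
      (F : E → Fin a → ℂ) (c : core Γ m → Fin a → ℂ),
      IsBas (sub (𝓕.at t ht) (core Γ m)) F c →
      ∃ s, GenU (quo (sub (𝓕.at t ht) (core Γ m))) (dF (sub (𝓕.at t ht) (core Γ m)) F) s)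
    {B₁ : Matrix (Fin (a + a)) (Fin (a + a)) ℝ} {n : ℕ}
    {B : Matrix (Fin n) (Fin n) ℝ} {v : Fin n → ℝ} {R : ℝ} {t s : Cm p} {ht : t ∈ 𝓕.T}
    (hs : s ∈ 𝓕.T) (h : HasX 𝓕 W a m N B₁ B v R t ht) : HasX 𝓕 W a m N B₁ B v R s hs := by
  have hd : 0 < d := by omega
  obtain ⟨hfin, hind, M, hform, F, c, hF, T, hT, hR⟩ := h
  have hKs := kfam_sub 𝓕 (core Γ m) hK
  obtain ⟨F', c', hF'⟩ := exists_bas (𝒢 := fsub 𝓕 (core Γ m)) I hd hKs M hs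
  obtain ⟨T', hT', -⟩ := mk_at (𝒢 := fsub 𝓕 (core Γ m)) (t := t) (ht := ht) (s := s) (hs := hs)
    I H ha hKs hF T hF'
  exact ⟨hfin, hind, M, form_move I hd hK hs hform, F', c', hF', T', hT'.trans hT,
    gr_all (𝒢 := fsub 𝓕 (core Γ m)) (t := t) (ht := ht) I H ha hKs (gen hfin M) hF T hR hs⟩

end

/-- **GLOB** -/
theorem glob_of (I : Inputs) (H : InsT) : GlobTStmt := by
  intro p d a m N Z Y _ _ _ _ _ _ _ _ f S w y₁ ha hf hP hconn hw hy₁ hN hU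
  have hd : 0 < d := by omega
  have hAB := I.ab p d Z Y f S hd hf hP
  have hS := hP.isClosed
  -- the initial point
  obtain ⟨E₁, Γ₁, _, _, _, _, _, _, hfin₁, 𝓕₁, q₁, χ₁, t₁, ht₁, hM₁, hχ₁, hind₁, ⟨M₁⟩, F₁, c₁,
    hF₁, ⟨s₁, hs₁⟩, hrad⟩ := hN
  obtain ⟨W₁, hW₁, hK₁⟩ := I.w p d Z Y f w E₁ Γ₁ 𝓕₁ q₁ _ hf hM₁ hw
  have hKs₁ := kfam_sub 𝓕₁ (core Γ₁ m) hK₁
  obtain ⟨B₁, hB₁⟩ := I.flat p d E₁ (core Γ₁ m) (fsub 𝓕₁ (core Γ₁ m)) _ hd hKs₁ (a + a) M₁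
  have k₁ := kah_fW (core Γ₁ m) hK₁ ht₁
  obtain ⟨b1, b2, b3⟩ := H.bas d a E₁ (core Γ₁ m) (sub (𝓕₁.at t₁ ht₁) (core Γ₁ m)) _ M₁ F₁ c₁ hd
    k₁ hF₁
  have := t2_quo (sub (𝓕₁.at t₁ ht₁) (core Γ₁ m))
  have kq₁ := kah_quo k₁
  have fx := (H.fo d _ _ _ hd).2.1 _ kq₁
  obtain ⟨k, B, ⟨T₁⟩⟩ := H.arith a d _ _ (quo (sub (𝓕₁.at t₁ ht₁) (core Γ₁ m)))
    (dF (sub (𝓕₁.at t₁ ht₁) (core Γ₁ m)) F₁) (cov M₁ c₁) (kw (fW (core Γ₁ m) W₁ t₁)) ha b1 fx.1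
    fx.2 b3 (hrad _ k₁)
  set v := T₁.clr (kw (fW (core Γ₁ m) W₁ t₁)) with hv
  obtain ⟨-, -, -, hpos, -⟩ := H.pos a d _ _ (quo (sub (𝓕₁.at t₁ ht₁) (core Γ₁ m)))
    (fW (core Γ₁ m) W₁ t₁) _ s₁ ha kq₁ hs₁
  have hvol := volT_pos hs₁
  set A := volT (quo (sub (𝓕₁.at t₁ ht₁) (core Γ₁ m)))
    (dF (sub (𝓕₁.at t₁ ht₁) (core Γ₁ m)) F₁) s₁ / cov M₁ c₁ with hA
  set b := (bT (quo (sub (𝓕₁.at t₁ ht₁) (core Γ₁ m)))
    (dF (sub (𝓕₁.at t₁ ht₁) (core Γ₁ m)) F₁) (ts s₁) (cjs (ts s₁))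
      (kw (fW (core Γ₁ m) W₁ t₁))).re / cov M₁ c₁ with hb
  have hApos : 0 < A := div_pos hvol b3
  have hbpos : 0 < b := div_pos hpos b3
  set R : ℝ := A ^ 2 / b ^ (d - a) with hR
  have hRpos : 0 < R := div_pos (pow_pos hApos 2) (pow_pos hbpos _)
  have hRT : RT (quo (sub (𝓕₁.at t₁ ht₁) (core Γ₁ m)))
      (dF (sub (𝓕₁.at t₁ ht₁) (core Γ₁ m)) F₁) (cov M₁ c₁) (fW (core Γ₁ m) W₁ t₁) s₁ R := by
    show A ^ 2 = R * b ^ (d - a)
    rw [hR, div_mul_cancel₀ _ (pow_pos hbpos _).ne']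
  have hP₁ : PPX f w a m N B₁ B v R y₁ := ⟨E₁, Γ₁, inferInstance, inferInstance,
    inferInstance, inferInstance, inferInstance, inferInstance, 𝓕₁, q₁, χ₁, t₁, ht₁, W₁, hM₁, hχ₁,
    hW₁, hK₁, hfin₁, hind₁, M₁, hB₁ t₁ ht₁, F₁, c₁, hF₁, T₁, rfl,
    gr_of (𝒢 := fsub 𝓕₁ (core Γ₁ m)) (t := t₁) (ht := ht₁) (y := t₁) (hy := ht₁) I H ha hKs₁ hF₁ T₁
      hF₁ hs₁ hRT⟩
  -- the key property
  have key : ∀ y₀ ∉ S, ∃ U ∈ 𝓝 y₀, ∀ y ∈ U, ∀ y' ∈ U,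
      PPX f w a m N B₁ B v R y → PPX f w a m N B₁ B v R y' := by
    intro y₀ hy₀
    obtain ⟨E, Γ, _, _, _, _, _, _, 𝓕, q, hM, ht, hT⟩ := hAB y₀ hy₀
    obtain ⟨W, hW, hK⟩ := I.w p d Z Y f w E Γ 𝓕 q _ hf hM hw
    set χ := chartAt (Cm p) y₀ with hχ
    have hUn : χ.source ∩ χ ⁻¹' 𝓕.T ∈ 𝓝 y₀ :=
      (χ.isOpen_inter_preimage 𝓕.isOpen).mem_nhds ⟨mem_chart_source _ _, ht⟩
    refine ⟨_, hUn, fun y hy y' hy' h => ?_⟩
    have hyS : y ∉ S := by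
      have := hT _ hy.2
      rwa [χ.left_inv hy.1] at this
    have h1 := h.all I H ha hf hw (hU y hyS) hM hW hK hy.2 (χ.left_inv hy.1)
    have h2 := h1.move (s := χ y') I H ha hK (fun _ Mk t ht F c hF =>
      degU_all I H ha hf hw (hU (χ.symm t) (hT t ht)) hM hW hK Mk ht rfl F c hF) hy'.2
    exact ⟨E, Γ, inferInstance, inferInstance, inferInstance, inferInstance, inferInstance,
      inferInstance, 𝓕, q, χ, χ y', hy'.2, W, hM, χ.left_inv hy'.1, hW, hK, h2⟩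
  have hall : ∀ y ∉ S, PPX f w a m N B₁ B v R y := by
    -- two open sets
    set A : Set Y := {y | y ∉ S ∧ PPX f w a m N B₁ B v R y} with hA
    set A' : Set Y := {y | y ∉ S ∧ ¬ PPX f w a m N B₁ B v R y} with hA'
    have hSo : IsOpen Sᶜ := hS.isOpen_compl
    have hAo : IsOpen A := by
      rw [isOpen_iff_mem_nhds]
      rintro y ⟨hy, hP⟩
      obtain ⟨U, hU, hUP⟩ := key y hy
      filter_upwards [hU, hSo.mem_nhds hy] with y' a b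
      exact ⟨b, hUP y (mem_of_mem_nhds hU) y' a hP⟩
    have hAo' : IsOpen A' := by
      rw [isOpen_iff_mem_nhds]
      rintro y ⟨hy, hP⟩
      obtain ⟨U, hU, hUP⟩ := key y hy
      filter_upwards [hU, hSo.mem_nhds hy] with y' a b
      exact ⟨b, fun h => hP (hUP y' a y (mem_of_mem_nhds hU) h)⟩
    intro y hy
    by_contra hcon
    obtain ⟨x, -, hx1, hx2⟩ := hconn A A' hAo hAo' (fun x hx => by
      by_cases h : PPX f w a m N B₁ B v R x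
      · exact Or.inl ⟨hx, h⟩
      · exact Or.inr ⟨hx, h⟩) ⟨y₁, hy₁, hy₁, hP₁⟩ ⟨y, hy, hy, hcon⟩
    exact hx2.2 hx1.2
  refine ⟨B₁, k, B, v, R, hRpos, fun y₀ hy₀ => ?_⟩
  obtain ⟨E, Γ, _, _, _, _, _, _, 𝓕, q, hM, ht₀, hT⟩ := hAB y₀ hy₀
  obtain ⟨W, hW, hK⟩ := I.w p d Z Y f w E Γ 𝓕 q _ hf hM hw
  obtain ⟨hfin, hind, M, hform, F, c, hF, T, hTv, hGR⟩ := (hall y₀ hy₀).all I H ha hf hw
    (hU y₀ hy₀) hM hW hK ht₀ ((chartAt (Cm p) y₀).left_inv (mem_chart_source _ _))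
  have hKs := kfam_sub 𝓕 (core Γ m) hK
  have gen : ∀ t (ht : t ∈ (fsub 𝓕 (core Γ m)).T) (F : E → Fin a → ℂ) (c : core Γ m → Fin a → ℂ),
      IsBas ((fsub 𝓕 (core Γ m)).at t ht) F c →
      ∃ s, GenU (quo ((fsub 𝓕 (core Γ m)).at t ht)) (dF ((fsub 𝓕 (core Γ m)).at t ht) F) s :=
    fun t ht F c hF => degU_all I H ha hf hw (hU _ (hT t ht)) hM hW hK M ht rfl F c hF
  obtain ⟨T', hT', F', c', s, ho, hxT, hbas, hFan, hcan, hol, hg⟩ :=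
    local_gen (𝒢 := fsub 𝓕 (core Γ m)) I H ha hKs M gen ht₀
  have hmt : ∀ t (ht : t ∈ T'), ∃ T₂ : MarkT (quo (sub (𝓕.at t (hT' ht)) (core Γ m)))
      (dF (sub (𝓕.at t (hT' ht)) (core Γ m)) (F' t)) (cov M (c' t))
        (kw (fW (core Γ m) W t)) B, T₂.clr (kw (fW (core Γ m) W t)) = v ∧
        ClR (𝒢 := fsub 𝓕 (core Γ m)) (W := fun i => W (idx (core Γ m) 𝓕.N i).1) (ht := ht₀)
          (hs := hT' ht) T₂ T := by
    intro t ht'
    obtain ⟨T₂, h1, h2⟩ := mk_at (𝒢 := fsub 𝓕 (core Γ m)) (ht := ht₀) (s := t) (hs := hT' ht')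
      I H ha hKs hF T (hbas t ht')
    exact ⟨T₂, h1.trans hTv, h2⟩
  choose mt hmt1 hmt2 using hmt
  classical
  obtain ⟨P, hPt⟩ : ∃ P : Cm p → Fin k → ℂ, ∀ t (ht : t ∈ T'),
      P t = (mt t ht).cls (ts fun i z => s i (t, z)) :=
    ⟨fun t => if ht : t ∈ T' then (mt t ht).cls (ts fun i z => s i (t, z)) else 0,
      fun t ht => dif_pos ht⟩
  have ht2 : ∀ t (ht : t ∈ 𝓕.T), T2Space (Qs (core Γ m) E) := fun t ht =>
    t2_quo (sub (𝓕.at t ht) (core Γ m))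
  have cg : ∀ y (hy : y ∈ T'), Cl2 (quo (sub (𝓕.at y (hT' hy)) (core Γ m)))
      (ts fun i z => s i (y, z)) := fun y hy => by
    have := ht2 y (hT' hy)
    exact (H.fo _ _ _ _ hd).1 _ (hg y hy).form
  exact ⟨{
    E := E
    Γ := Γ
    fin := hfin
    𝓕 := 𝓕
    q := q
    χ := chartAt (Cm p) y₀
    model := hM
    W := W
    pull := hW
    kfam := hK
    index := hind
    M := M
    form := fun t ht' => form_move I hd hK ht' hform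
    T' := T'
    hT' := hT'
    isOpen' := ho
    F := F'
    c := c'
    bas := hbas
    holF := hFan
    holc := hcan
    s := s
    hols := hol
    gen := hg
    mt := mt
    kah := hmt1
    P := P
    per := hPt
    holP := fun k t₂ ht₂ => holP_of3 (𝒢 := fsub 𝓕 (core Γ m))
      (W := fun i => W (idx (core Γ m) 𝓕.N i).1) H ha hT' ho hol hg ht₂ (mt t₂ ht₂) (fun t ht' => by
        rw [hPt t ht']
        exact (cls_mvd (𝒢 := fsub 𝓕 (core Γ m)) (W := fun i => W (idx (core Γ m) 𝓕.N i).1)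
          (hmt2 t₂ ht₂) (hmt2 t ht') (cg t ht')).symm) k
    nrm := fun t ht' => by
      have := ht2 t (hT' ht')
      obtain ⟨_, h1⟩ := gr_all (𝒢 := fsub 𝓕 (core Γ m)) (t := chartAt (Cm p) y₀ y₀) (ht := ht₀)
        (s := t) I H ha hKs gen hF T hGR (hT' ht')
      have h2 := h1 (F' t) (c' t) (fun i z => s i (t, z)) (hbas t ht') (hg t ht')
      have h3 := (H.per a d _ _ (quo (sub (𝓕.at t (hT' ht')) (core Γ m))) (fW (core Γ m) W t) _ _ _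
        k B (mt t ht') ha (kah_quo (kah_fW (core Γ m) hK (hT' ht'))) (hg t ht')
        (H.bas d a E (core Γ m) (sub (𝓕.at t (hT' ht')) (core Γ m)) _ M (F' t) (c' t) hd
          (kah_fW (core Γ m) hK (hT' ht')) (hbas t ht')).2.2).2
      rw [hPt t ht']
      exact Eq.trans h2 (congrArg (fun r : ℝ => R * r ^ (d - a)) h3.symm) },
    mem_chart_source _ _, hxT, fun t ht' => hT t (hT' ht')⟩

end Vale.Agent.P281.H399.HKT
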